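import Vale.Agent.P284.H395.StkI
import Vale.Agent.P272.K.C2.Wirt

/-!
# P284 (helper224), project D, module E2: definitions

Functions on `X × ℂᴿ`, smooth in the charts of `X`; the complex Hessian along `X × ℂ` where `ℂ` is the
`j`-th coordinate line of `ℂᴿ` through `z`: a matrix of size `n + 1`, the last index is the coordinate of
the line.
-/

open scoped Manifold ContDiff ComplexOrder ComplexConjugate Topology
open MeasureTheory Set Filter

noncomputable section

namespace Vale.Agent.P284.H224.D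

open Vale.Agent.P272.K Vale.Agent.P272.K.INT

variable {n R : ℕ}

section
variable {X : Type} [TopologicalSpace X] [ChartedSpace (Cm n) X]

/-- `lam` is a smooth function on `X × ℂᴿ`. -/
def JSm (lam : X → Cm R → ℝ) : Prop :=
  ∀ (e : Chart n X) (x : X), At e x → ∀ z : Cm R,
    ContDiffAt ℝ ∞ (fun q : Cm n × Cm R => lam (e.symm q.1) q.2) (e x, z)

/-- the function `lam` in the chart `e` times the `j`-th coordinate line through `z` -/
def pj (lam : X → Cm R → ℝ) (e : Chart n X) (z : Cm R) (j : Fin R) (ζ : Cm (n + 1)) : ℝ :=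
  lam (e.symm (Fin.init ζ)) (z + Pi.single j (ζ (Fin.last n)))

/-- the complex Hessian along `X × ℂ`, at `(y, z)` -/
def HB (lam : X → Cm R → ℝ) (e : Chart n X) (z : Cm R) (j : Fin R) (y : Cm n) :
    Matrix (Fin (n + 1)) (Fin (n + 1)) ℂ :=
  cHess (pj lam e z j) (Fin.snoc y 0)

/-- `A` bordered by a zero row and a zero column -/
def hatM (A : Matrix (Fin n) (Fin n) ℂ) : Matrix (Fin (n + 1)) (Fin (n + 1)) ℂ :=
  Matrix.of fun i k => Fin.lastCases (motive := fun _ => ℂ) 0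
    (fun i' => Fin.lastCases (motive := fun _ => ℂ) 0 (fun k' => A i' k') k) i

@[simp] theorem hatM_cc (A : Matrix (Fin n) (Fin n) ℂ) (a b : Fin n) :
    hatM A a.castSucc b.castSucc = A a b := by simp [hatM]

@[simp] theorem hatM_cl (A : Matrix (Fin n) (Fin n) ℂ) (a : Fin n) :
    hatM A a.castSucc (Fin.last n) = 0 := by simp [hatM]

@[simp] theorem hatM_lc (A : Matrix (Fin n) (Fin n) ℂ) (b : Fin n) :
    hatM A (Fin.last n) b.castSucc = 0 := by simp [hatM]

@[simp] theorem hatM_ll (A : Matrix (Fin n) (Fin n) ℂ) :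
    hatM A (Fin.last n) (Fin.last n) = 0 := by simp [hatM]

/-- the real linear map `v ↦ (v, 0)` -/
def jn (n : ℕ) : Cm n →L[ℝ] Cm (n + 1) :=
  ContinuousLinearMap.pi fun i => Fin.lastCases (motive := fun _ => Cm n →L[ℝ] ℂ) 0
    (fun a => ContinuousLinearMap.proj a) i

theorem jn_apply (v : Cm n) : jn n v = Fin.snoc v 0 := by
  funext i
  refine Fin.lastCases ?_ (fun a => ?_) i
  · simp [jn]
  · simp [jn]

/-- the real linear map `t ↦ (0, t)` -/
def jl (n : ℕ) : ℂ →L[ℝ] Cm (n + 1) :=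
  ContinuousLinearMap.pi fun i => Fin.lastCases (motive := fun _ => ℂ →L[ℝ] ℂ)
    (ContinuousLinearMap.id ℝ ℂ) (fun _ => 0) i

theorem jl_apply (t : ℂ) : jl n t = Fin.snoc (0 : Cm n) t := by
  funext i
  refine Fin.lastCases ?_ (fun a => ?_) i
  · simp [jl]
  · simp [jl]

theorem snoc_single (a : Fin n) (c : ℂ) :
    (Fin.snoc (Pi.single a c : Cm n) (0 : ℂ) : Cm (n + 1)) = Pi.single a.castSucc c := by
  funext i
  refine Fin.lastCases ?_ (fun b => ?_) i
  · rw [Fin.snoc_last, Pi.single_eq_of_ne (Fin.castSucc_lt_last a).ne']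
  · simp [Pi.single_apply, Fin.castSucc_inj]

theorem snoc_zero_last (c : ℂ) :
    (Fin.snoc (0 : Cm n) c : Cm (n + 1)) = Pi.single (Fin.last n) c := by
  funext i
  refine Fin.lastCases ?_ (fun b => ?_) i
  · simp
  · rw [Fin.snoc_castSucc, Pi.single_eq_of_ne (Fin.castSucc_lt_last b).ne, Pi.zero_apply]

theorem snoc_add (y v : Cm n) (s t : ℂ) :
    (Fin.snoc (y + v) (s + t) : Cm (n + 1)) = (Fin.snoc y s : Cm (n + 1)) + Fin.snoc v t := by
  funext i
  refine Fin.lastCases ?_ (fun b => ?_) i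
  · simp
  · simp

/-- the embedding `y ↦ (y, t)` -/
theorem hasFDerivAt_snoc (y : Cm n) (t : ℂ) :
    HasFDerivAt (fun y' : Cm n => (Fin.snoc y' t : Cm (n + 1))) (jn n) y := by
  have h1 : (fun y' : Cm n => (Fin.snoc y' t : Cm (n + 1))) = fun y' => jn n y' + Fin.snoc 0 t := by
    funext y'
    rw [jn_apply, ← snoc_add, add_zero, zero_add]
  rw [h1]
  exact (jn n).hasFDerivAt.add_const _

/-- the embedding `t ↦ (y, t)` -/
theorem hasFDerivAt_snoc_last (y : Cm n) (t : ℂ) :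
    HasFDerivAt (fun t' : ℂ => (Fin.snoc y t' : Cm (n + 1))) (jl n) t := by
  have h1 : (fun t' : ℂ => (Fin.snoc y t' : Cm (n + 1))) = fun t' => jl n t' + Fin.snoc y 0 := by
    funext t'
    rw [jl_apply, ← snoc_add, add_zero, zero_add]
  rw [h1]
  exact (jl n).hasFDerivAt.add_const _

theorem dz_snoc {F : Cm (n + 1) → ℂ} {y : Cm n} {t : ℂ}
    (hF : DifferentiableAt ℝ F (Fin.snoc y t)) (a : Fin n) :
    dz a.castSucc F (Fin.snoc y t) = dz a (fun y' => F (Fin.snoc y' t)) y := by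
  have h1 : HasFDerivAt (fun y' => F (Fin.snoc y' t))
      ((fderiv ℝ F (Fin.snoc y t)).comp (jn n)) y :=
    HasFDerivAt.comp y (g := F) hF.hasFDerivAt (hasFDerivAt_snoc y t)
  unfold dz
  rw [h1.fderiv]
  simp only [ContinuousLinearMap.comp_apply, jn_apply, snoc_single]

theorem dzb_snoc {F : Cm (n + 1) → ℂ} {y : Cm n} {t : ℂ}
    (hF : DifferentiableAt ℝ F (Fin.snoc y t)) (a : Fin n) :
    dzb a.castSucc F (Fin.snoc y t) = dzb a (fun y' => F (Fin.snoc y' t)) y := by
  have h1 : HasFDerivAt (fun y' => F (Fin.snoc y' t))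
      ((fderiv ℝ F (Fin.snoc y t)).comp (jn n)) y :=
    HasFDerivAt.comp y (g := F) hF.hasFDerivAt (hasFDerivAt_snoc y t)
  unfold dzb
  rw [h1.fderiv]
  simp only [ContinuousLinearMap.comp_apply, jn_apply, snoc_single]

/-- the embedding `t ↦ z + t e_j` -/
theorem hasFDerivAt_line (z : Cm R) (j : Fin R) (t : ℂ) :
    HasFDerivAt (fun t' : ℂ => z + Pi.single j t')
      (ContinuousLinearMap.single ℝ (fun _ : Fin R => ℂ) j) t := by
  have h := (ContinuousLinearMap.single ℝ (fun _ : Fin R => ℂ) j).hasFDerivAt (x := t)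
  exact h.const_add z

theorem fderiv_last {F : Cm (n + 1) → ℂ} {G : Cm R → ℂ} {y : Cm n} {z : Cm R} {j : Fin R}
    (hF : DifferentiableAt ℝ F (Fin.snoc y 0)) (hG : DifferentiableAt ℝ G z)
    (h : ∀ᶠ t in 𝓝 (0 : ℂ), F (Fin.snoc y t) = G (z + Pi.single j t)) (c : ℂ) :
    fderiv ℝ F (Fin.snoc y 0) (Pi.single (Fin.last n) c) = fderiv ℝ G z (Pi.single j c) := by
  have h1 : HasFDerivAt (fun t => F (Fin.snoc y t))
      ((fderiv ℝ F (Fin.snoc y 0)).comp (jl n)) 0 :=
    HasFDerivAt.comp 0 (g := F) hF.hasFDerivAt (hasFDerivAt_snoc_last y 0)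
  have hz : z + Pi.single j (0 : ℂ) = z := by simp
  have h2 : HasFDerivAt (fun t => G (z + Pi.single j t))
      ((fderiv ℝ G z).comp (ContinuousLinearMap.single ℝ (fun _ : Fin R => ℂ) j)) 0 :=
    HasFDerivAt.comp 0 (g := G) (by rw [hz]; exact hG.hasFDerivAt) (hasFDerivAt_line z j 0)
  have h3 := h1.unique (h2.congr_of_eventuallyEq h)
  have h4 := congrArg (fun A : ℂ →L[ℝ] ℂ => A c) h3
  simp only [ContinuousLinearMap.comp_apply, jl_apply, snoc_zero_last] at h4
  exact h4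

theorem dz_last {F : Cm (n + 1) → ℂ} {G : Cm R → ℂ} {y : Cm n} {z : Cm R} {j : Fin R}
    (hF : DifferentiableAt ℝ F (Fin.snoc y 0)) (hG : DifferentiableAt ℝ G z)
    (h : ∀ᶠ t in 𝓝 (0 : ℂ), F (Fin.snoc y t) = G (z + Pi.single j t)) :
    dz (Fin.last n) F (Fin.snoc y 0) = dz j G z := by
  unfold dz
  rw [fderiv_last hF hG h, fderiv_last hF hG h]

theorem dzb_last {F : Cm (n + 1) → ℂ} {G : Cm R → ℂ} {y : Cm n} {z : Cm R} {j : Fin R}
    (hF : DifferentiableAt ℝ F (Fin.snoc y 0)) (hG : DifferentiableAt ℝ G z)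
    (h : ∀ᶠ t in 𝓝 (0 : ℂ), F (Fin.snoc y t) = G (z + Pi.single j t)) :
    dzb (Fin.last n) F (Fin.snoc y 0) = dzb j G z := by
  unfold dzb
  rw [fderiv_last hF hG h, fderiv_last hF hG h]

/-- the affine map `ζ ↦ (init ζ, z + ζ_last e_j)` -/
def am (n : ℕ) (z : Cm R) (j : Fin R) (ζ : Cm (n + 1)) : Cm n × Cm R :=
  (Fin.init ζ, z + Pi.single j (ζ (Fin.last n)))

theorem am_snoc (z : Cm R) (j : Fin R) (y : Cm n) (t : ℂ) :
    am n z j (Fin.snoc y t) = (y, z + Pi.single j t) := by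
  simp [am, Fin.init_snoc]

theorem am_smooth (z : Cm R) (j : Fin R) : ContDiff ℝ ∞ (am n z j) := by
  have h1 : ContDiff ℝ ∞ (fun ζ : Cm (n + 1) => (Fin.init ζ : Cm n)) :=
    contDiff_pi.2 fun a => contDiff_apply ℝ ℂ (a.castSucc)
  have h2 : ContDiff ℝ ∞ (fun ζ : Cm (n + 1) => (Pi.single j (ζ (Fin.last n)) : Cm R)) :=
    (ContinuousLinearMap.single ℝ (fun _ : Fin R => ℂ) j).contDiff.comp
      (contDiff_apply ℝ ℂ (Fin.last n))
  exact h1.prodMk (contDiff_const.add h2)

omit [ChartedSpace (Cm n) X] in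
theorem pj_eq (lam : X → Cm R → ℝ) (e : Chart n X) (z : Cm R) (j : Fin R) :
    pj lam e z j = fun ζ => (fun q : Cm n × Cm R => lam (e.symm q.1) q.2) (am n z j ζ) := rfl

theorem At.ev_target {e : Chart n X} {x : X} (hx : At e x) :
    ∀ᶠ y in 𝓝 (e x), y ∈ e.target := e.open_target.mem_nhds (e.map_source hx.2)

/-- smoothness of `pj` -/
theorem JSm.pj {lam : X → Cm R → ℝ} (hl : JSm (n := n) lam) {e : Chart n X} {y : Cm n}
    (he : e ∈ atlas (Cm n) X) (hy : y ∈ e.target) (z : Cm R) (j : Fin R) (t : ℂ) :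
    ContDiffAt ℝ ∞ (D.pj lam e z j) (Fin.snoc y t) := by
  rw [pj_eq]
  have h1 := hl e (e.symm y) ⟨he, e.map_target hy⟩ (z + Pi.single j t)
  rw [e.right_inv hy, ← am_snoc] at h1
  exact h1.comp (Fin.snoc y t) (am_smooth z j).contDiffAt

/-- smoothness in `X` -/
theorem JSm.left {lam : X → Cm R → ℝ} (hl : JSm (n := n) lam) {e : Chart n X} {x : X}
    (hx : At e x) (z : Cm R) : ContDiffAt ℝ ∞ (fun y => lam (e.symm y) z) (e x) :=
  (hl e x hx z).comp (e x) (contDiffAt_id.prodMk contDiffAt_const)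

/-- smoothness in `ℂᴿ` -/
theorem JSm.right [IsManifold 𝓘(ℂ, Cm n) ω X] {lam : X → Cm R → ℝ} (hl : JSm (n := n) lam) (x : X) :
    ContDiff ℝ ∞ (lam x) := by
  rw [contDiff_iff_contDiffAt]
  intro z
  have hx : At (chartAt (Cm n) x) x := ⟨chart_mem_atlas _ _, mem_chart_source _ _⟩
  have h1 := (hl _ x hx z).comp z (contDiffAt_const (c := chartAt (Cm n) x x) |>.prodMk
    contDiffAt_id)
  refine h1.congr_of_eventuallyEq (Eventually.of_forall fun z' => ?_)
  simp only [Function.comp_apply]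
  rw [(chartAt (Cm n) x).left_inv hx.2]

variable {lam : X → Cm R → ℝ} {e : Chart n X} {x : X} {z : Cm R} {j : Fin R}

theorem pj_ev (hl : JSm (n := n) lam) (hx : At e x) (z : Cm R) (j : Fin R) (t : ℂ) :
    ∀ᶠ y in 𝓝 (e x), ContDiffAt ℝ ∞ (pj lam e z j) (Fin.snoc y t) := by
  filter_upwards [At.ev_target hx] with y hy using hl.pj hx.1 hy z j t

theorem HB_cc (hl : JSm (n := n) lam) (hx : At e x) (a b : Fin n) :
    HB lam e z j (e x) a.castSucc b.castSucc = cHess (fun y => lam (e.symm y) z) (e x) a b := by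
  have hs := pj_ev hl hx z j 0
  show dz a.castSucc (dzb b.castSucc fun ζ => (pj lam e z j ζ : ℂ)) (Fin.snoc (e x) 0) =
    dz a (dzb b fun y => ((lam (e.symm y) z : ℝ) : ℂ)) (e x)
  rw [dz_snoc ((smooth_dzb (INT.ofReal_contDiffAt hs.self_of_nhds)).differentiableAt (by simp))]
  refine INT.dz_congr ?_
  filter_upwards [hs] with y hy
  rw [dzb_snoc ((INT.ofReal_contDiffAt hy).differentiableAt (by simp))]
  congr 1
  funext y'
  simp [pj]

/-- the value of `∂/∂z̄_last` of `pj` -/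
theorem dzb_pj_last (hl : JSm (n := n) lam) {y : Cm n} (he : e ∈ atlas (Cm n) X)
    (hy : y ∈ e.target) (t : ℂ) :
    dzb (Fin.last n) (fun ζ => (pj lam e z j ζ : ℂ)) (Fin.snoc y t) =
      dzb j (fun z' => (lam (e.symm y) z' : ℂ)) (z + Pi.single j t) := by
  have hx : At e (e.symm y) := ⟨he, e.map_target hy⟩
  -- translate to `t = 0`
  have h1 : dzb (Fin.last n) (fun ζ => (pj lam e (z + Pi.single j t) j ζ : ℂ)) (Fin.snoc y 0) =
      dzb j (fun z' => (lam (e.symm y) z' : ℂ)) (z + Pi.single j t) := by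
    refine dzb_last ((INT.ofReal_contDiffAt (hl.pj he hy _ j 0)).differentiableAt (by simp))
      ?_ (Eventually.of_forall fun s => ?_)
    · have h2 := hl e _ hx (z + Pi.single j t)
      rw [e.right_inv hy] at h2
      have h3 : ContDiffAt ℝ ∞ (fun z' => lam (e.symm y) z') (z + Pi.single j t) :=
        h2.comp _ (contDiffAt_const.prodMk contDiffAt_id)
      exact (INT.ofReal_contDiffAt h3).differentiableAt (by simp)
    · simp [pj]
  rw [← h1]
  have h4 : (fun ζ => (pj lam e (z + Pi.single j t) j ζ : ℂ)) =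
      fun ζ => (fun ζ => (pj lam e z j ζ : ℂ)) (ζ + Fin.snoc 0 t) := by
    funext ζ
    simp only [pj, Pi.add_apply, Fin.snoc_last]
    have e1 : (Fin.init (ζ + Fin.snoc (0 : Cm n) t) : Cm n) = Fin.init ζ := by
      funext a
      simp [Fin.init]
    have e2 : (Pi.single j (ζ (Fin.last n) + t) : Cm R) =
        Pi.single j t + Pi.single j (ζ (Fin.last n)) := by
      rw [← Pi.single_add, add_comm]
    rw [e1, e2, add_assoc]
  have h5 : (Fin.snoc y 0 : Cm (n + 1)) + Fin.snoc (0 : Cm n) t = Fin.snoc y t := by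
    rw [← snoc_add, add_zero, zero_add]
  have h6 : fderiv ℝ (fun ζ => (pj lam e (z + Pi.single j t) j ζ : ℂ)) (Fin.snoc y 0) =
      fderiv ℝ (fun ζ => (pj lam e z j ζ : ℂ)) (Fin.snoc y t) := by
    rw [h4, ← h5]
    exact fderiv_comp_add_right (f := fun ζ => (pj lam e z j ζ : ℂ)) (Fin.snoc (0 : Cm n) t)
  unfold dzb
  rw [h6]

theorem HB_cl (hl : JSm (n := n) lam) (hx : At e x) (a : Fin n) :
    HB lam e z j (e x) a.castSucc (Fin.last n) =
      dz a (fun y => dzb j (fun z' => (lam (e.symm y) z' : ℂ)) z) (e x) := by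
  have hs := pj_ev hl hx z j 0
  show dz a.castSucc (dzb (Fin.last n) fun ζ => (pj lam e z j ζ : ℂ)) (Fin.snoc (e x) 0) = _
  rw [dz_snoc ((smooth_dzb (INT.ofReal_contDiffAt hs.self_of_nhds)).differentiableAt (by simp))]
  refine INT.dz_congr ?_
  filter_upwards [At.ev_target hx] with y hy
  rw [dzb_pj_last hl hx.1 hy]
  simp

theorem HB_ll (hl : JSm (n := n) lam) (hx : At e x) :
    HB lam e z j (e x) (Fin.last n) (Fin.last n) = cHess (lam x) z j j := by
  have hs := pj_ev hl hx z j 0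
  show dz (Fin.last n) (dzb (Fin.last n) fun ζ => (pj lam e z j ζ : ℂ)) (Fin.snoc (e x) 0) =
    dz j (dzb j fun z' => (lam x z' : ℂ)) z
  refine dz_last ((smooth_dzb (INT.ofReal_contDiffAt hs.self_of_nhds)).differentiableAt (by simp))
    ?_ (Eventually.of_forall fun t => ?_)
  · have h3 : ContDiffAt ℝ ∞ (fun z' => lam (e.symm (e x)) z') z :=
      (hl e x hx z).comp z (contDiffAt_const.prodMk contDiffAt_id)
    rw [hx.left_inv] at h3
    exact (smooth_dzb (INT.ofReal_contDiffAt h3)).differentiableAt (by simp)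
  · have := dzb_pj_last (z := z) (j := j) hl hx.1 (e.map_source hx.2) t
    rw [hx.left_inv] at this
    exact this

/-- the bordered Hessian is Hermitian -/
theorem HB_herm (hl : JSm (n := n) lam) (hx : At e x) : (HB lam e z j (e x)).IsHermitian :=
  C2.cHess_isHermitian ((pj_ev hl hx z j 0).self_of_nhds.of_le two_le_inf)

theorem HB_lc (hl : JSm (n := n) lam) (hx : At e x) (a : Fin n) :
    HB lam e z j (e x) (Fin.last n) a.castSucc =
      conj (dz a (fun y => dzb j (fun z' => (lam (e.symm y) z' : ℂ)) z) (e x)) := by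
  rw [← HB_cl hl hx]
  exact ((HB_herm hl hx).apply _ _).symm

end

end Vale.Agent.P284.H224.D
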