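import Vale.Agent.P284.H224.D.Loc
import Vale.Agent.P272.K.Asm.Weak

/-!
# P284 (helper224), project D, module E2: the integration by parts on `X × ℂᴿ`
-/

open scoped Manifold ContDiff ComplexOrder ComplexConjugate Topology
open MeasureTheory Set Filter Matrix

noncomputable section

namespace Vale.Agent.P284.H224.D

open Vale.Agent.P272.K Vale.Agent.P272.K.INT Vale.Agent.P284.H395 Vale.Agent.P284.H619.D

variable {n R : ℕ} {X : Type} [TopologicalSpace X] [ChartedSpace (Cm n) X]

variable {b : Chart n X → Cm n → Matrix (Fin n) (Fin n) ℂ}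
  {l f : X → Cm R → ℝ} {χ : Cm R → ℝ} {j : Fin R} {e : Chart n X} {x : X} {z : Cm R}

/-- the form `b + i∂∂̄l` on `X` -/
def Mt (b : Chart n X → Cm n → Matrix (Fin n) (Fin n) ℂ) (l : X → Cm R → ℝ) (z : Cm R)
    (e : Chart n X) (y : Cm n) : Matrix (Fin n) (Fin n) ℂ :=
  b e y + cHess (fun y => l (e.symm y) z) y

theorem adj_last {m : ℕ} (A : Matrix (Fin (m + 1)) (Fin (m + 1)) ℂ) :
    A.adjugate (Fin.last m) (Fin.last m) = (A.submatrix Fin.castSucc Fin.castSucc).det := by
  rw [Matrix.adjugate_fin_succ_eq_det_submatrix]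
  have h1 : ((-1 : ℂ)) ^ ((Fin.last m : ℕ) + (Fin.last m : ℕ)) = 1 :=
    Even.neg_one_pow ⟨_, rfl⟩
  rw [h1, one_mul]
  congr 1
  ext i k
  simp [Fin.succAbove_last]

/-- only the last entry of `HB χ` is not zero -/
theorem HB_right (hχ : ContDiff ℝ ∞ χ) (hx : At e x) (z : Cm R) (j : Fin R) :
    HB (fun (_ : X) z => χ z) e z j (e x) =
      Matrix.single (Fin.last n) (Fin.last n) (cHess χ z j j) := by
  have hJ : JSm (n := n) (X := X) (fun _ z => χ z) := JSm.of_right hχ
  ext i k
  refine Fin.lastCases ?_ (fun a => ?_) i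
  · refine Fin.lastCases ?_ (fun c => ?_) k
    · rw [HB_ll hJ hx]
      simp
    · rw [HB_lc hJ hx]
      rw [Matrix.single_apply_of_col_ne _ _ (Fin.castSucc_lt_last c).ne']
      simp
  · rw [Matrix.single_apply_of_row_ne (Fin.castSucc_lt_last a).ne']
    refine Fin.lastCases ?_ (fun c => ?_) k
    · rw [HB_cl hJ hx]
      simp
    · rw [HB_cc hJ hx]
      have : cHess (fun _ : Cm n => χ z) (e x) = 0 := by
        have h0 : (dzb c fun _ : Cm n => ((χ z : ℝ) : ℂ)) = fun _ => 0 := by
          funext y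
          simp [dzb]
        ext a c
        have h0 : (dzb c fun _ : Cm n => ((χ z : ℝ) : ℂ)) = fun _ => 0 := by
          funext y
          simp [dzb]
        show dz a (dzb c fun _ : Cm n => ((χ z : ℝ) : ℂ)) (e x) = 0
        rw [h0]
        simp [dz]
      rw [this]
      rfl

theorem Kt_sub (hl : JSm (n := n) l) (hx : At e x) (z : Cm R) (j : Fin R) :
    (Kt b l e z j (e x)).submatrix Fin.castSucc Fin.castSucc = Mt b l z e (e x) := by
  ext a c
  simp only [Matrix.submatrix_apply, Kt, Mt, Matrix.add_apply, hatM_cc, HB_cc hl hx]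

theorem cHess_jj_im (hχ : ContDiff ℝ ∞ χ) (z : Cm R) (j : Fin R) : (cHess χ z j j).im = 0 := by
  have h1 := (C2.cHess_isHermitian (hχ.contDiffAt (x := z) |>.of_le two_le_inf)).apply j j
  exact Complex.conj_eq_iff_im.1 h1

/-- the second term of Green's formula -/
theorem tra_right (hl : JSm (n := n) l) (hχ : ContDiff ℝ ∞ χ) (hx : At e x) (z : Cm R)
    (j : Fin R) : tra (Kt b l e z j (e x)) (HB (fun (_ : X) z => χ z) e z j (e x)) =
      (cHess χ z j j).re * (Mt b l z e (e x)).det.re := by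
  unfold tra
  rw [HB_right hχ hx, Matrix.trace_mul_single, adj_last, Kt_sub hl hx]
  simp [Complex.mul_re, cHess_jj_im hχ z j, mul_comm]

theorem Phi_eq (hl : JSm (n := n) l) (hχ : ContDiff ℝ ∞ χ) (hx : At e x) (z : Cm R)
    (j : Fin R) : PhiD b l f χ j z e (e x) =
      χ z * tra (Kt b l e z j (e x)) (HB f e z j (e x)) -
        (cHess χ z j j).re * (f (e.symm (e x)) z * (Mt b l z e (e x)).det.re) := by
  unfold PhiD
  rw [tra_right hl hχ hx]
  ring

theorem tra_sum {m : ℕ} {ι : Type*} (s : Finset ι) (A : Matrix (Fin m) (Fin m) ℂ)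
    (H : ι → Matrix (Fin m) (Fin m) ℂ) : tra A (∑ i ∈ s, H i) = ∑ i ∈ s, tra A (H i) := by
  unfold tra
  rw [Matrix.mul_sum, Matrix.trace_sum, Complex.re_sum]

theorem HB_sum {ι : Type*} (s : Finset ι) {g : ι → X → Cm R → ℝ} (hg : ∀ i, JSm (n := n) (g i))
    (hx : At e x) (z : Cm R) (j : Fin R) :
    HB (fun x z => ∑ i ∈ s, g i x z) e z j (e x) = ∑ i ∈ s, HB (g i) e z j (e x) := by
  unfold HB
  rw [← cHess_sum s fun i _ => ((hg i).pj hx.1 (e.map_source hx.2) z j 0).of_le two_le_inf]
  rfl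

theorem continuous_cHess_re (hχ : ContDiff ℝ ∞ χ) (j : Fin R) :
    Continuous fun z => (cHess χ z j j).re := by
  rw [continuous_iff_continuousAt]
  intro z
  exact Complex.continuous_re.continuousAt.comp
    (INT.smooth_cHess (hχ.contDiffAt (x := z)) j j).continuousAt

theorem hcs_cHess_re (hχc : HasCompactSupport χ) (j : Fin R) :
    HasCompactSupport fun z => (cHess χ z j j).re :=
  HasCompactSupport.intro hχc fun z hz => by rw [cHess_zero_of_notMem hz]; rfl

section
variable [IsManifold 𝓘(ℂ, Cm n) ω X]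

theorem isDensity_Mt (hb : IsClosedForm b) (hl : JSm (n := n) l) (z : Cm R) :
    IsDensity (fun (e : Chart n X) y => (Mt b l z e y).det.re) :=
  (hb.add (isClosedForm_cHess (u := fun x => l x z) fun _ _ hx => hl.left hx z)).isDensity

theorem isDensity_fMt (hb : IsClosedForm b) (hl : JSm (n := n) l) (hf : JSm (n := n) f) (z : Cm R) :
    IsDensity (fun (e : Chart n X) y => f (e.symm y) z * (Mt b l z e y).det.re) :=
  H608.D.isDensity_smul (isDensity_Mt hb hl z) (f := fun x => f x z) fun _ _ hx => hf.left hx z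

omit [IsManifold 𝓘(ℂ, Cm n) ω X] in
theorem pcont_Mt (hb : IsClosedForm b) (hl : JSm (n := n) l) :
    PCont (fun z (e : Chart n X) y => (Mt b l z e y).det.re) :=
  MCont.det_re ((MCont.const fun e x hx i k => (hb.smooth e x hx i k).continuousAt).add
    (mcont_cHess hl))

/-- **the integration by parts on `X × ℂᴿ`** -/
theorem ibp_global [T2Space X] [CompactSpace X] (hb : IsClosedForm b)
    (hbh : ∀ e x, At e x → (b e (e x)).IsHermitian) (hl : JSm (n := n) l) (hf : JSm (n := n) f)
    (hχ : ContDiff ℝ ∞ χ) (hχc : HasCompactSupport χ) (j : Fin R) :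
    ∫ z, χ z * intX (fun e y => tra (Kt b l e z j y) (HB f e z j y)) =
      ∫ z, (cHess χ z j j).re * intX (fun e y => f (e.symm y) z * (Mt b l z e y).det.re) := by
  set P := part n X with hP
  set g : Fin P.N → X → Cm R → ℝ := fun i x z => P.ρ i x * f x z with hg
  have hgs : ∀ i, JSm (n := n) (g i) := fun i => (JSm.of_smoothFn (P.smooth i)).mul hf
  have h0 : ∀ i x, x ∉ tsupport (P.ρ i) → ∀ z, g i x z = 0 := fun i x hx z => by
    show P.ρ i x * _ = 0
    rw [image_eq_zero_of_notMem_tsupport hx, zero_mul]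
  have hloc := fun i => local_zero hb hbh hl (hgs i) hχ hχc (P.mem i) (isClosed_tsupport (P.ρ i))
    (P.supp i) (h0 i) j
  have h1 : ∀ i z, intX (PhiD (n := n) b l (g i) χ j z) =
      ∫ y in (P.e i).target, PhiD b l (g i) χ j z (P.e i) y := by
    intro i z
    refine intX_of_support (isDensity_Phi hb hl (hgs i) hχ j z) (P.mem i)
      (isClosed_tsupport (P.ρ i)) (P.supp i) fun e' x hx hxK => ?_
    have h2 : HB (g i) e' z j (e' x) = 0 := cHess_zero' (HB_zero (isClosed_tsupport _) (h0 i)
      (e'.map_source hx.2) (by rw [e'.left_inv hx.2]; exact hxK) z j 0)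
    unfold PhiD
    rw [h2, tra_zero, e'.left_inv hx.2, h0 i x hxK]
    ring
  have hsum : (fun x z => ∑ i, g i x z) = f := by
    funext x z
    simp only [hg]
    rw [← Finset.sum_mul, P.sum, one_mul]
  have h2 : ∀ z, intX (PhiD (n := n) b l f χ j z) = ∑ i, intX (PhiD (n := n) b l (g i) χ j z) := by
    intro z
    rw [← intX_sum _ fun i _ => isDensity_Phi hb hl (hgs i) hχ j z]
    refine intX_congr fun e x hx => ?_
    have h3 : HB f e z j (e x) = ∑ i, HB (g i) e z j (e x) := by
      rw [← HB_sum _ hgs hx, hsum]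
    have h4 : f (e.symm (e x)) z = ∑ i, g i (e.symm (e x)) z :=
      (congrFun (congrFun hsum (e.symm (e x))) z).symm
    unfold PhiD
    rw [h3, h4, tra_sum, Finset.mul_sum, Finset.sum_mul, ← Finset.sum_sub_distrib]
  have h3 : ∫ z, intX (PhiD (n := n) b l f χ j z) = 0 := by
    simp only [h2, h1]
    rw [integral_finsetSum _ fun i _ => (hloc i).1]
    exact Finset.sum_eq_zero fun i _ => (hloc i).2
  have h4 : ∀ z, intX (PhiD (n := n) b l f χ j z) =
      χ z * intX (fun e y => tra (Kt b l e z j y) (HB f e z j y)) -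
        (cHess χ z j j).re * intX (fun e y => f (e.symm y) z * (Mt b l z e y).det.re) := by
    intro z
    rw [← intX_const_mul, ← intX_const_mul, ← intX_sub ((isDensity_tra hb hl hf z j).const_mul _)
      ((isDensity_fMt hb hl hf z).const_mul _)]
    exact intX_congr fun e x hx => Phi_eq hl hχ hx z j
  have i1 := (int_intX_cs (μ := volume) (pcont_tra (mcont_Kt hb hl j) (mcont_HB hf j))
    hχ.continuous hχc).1
  have i2 := (int_intX_cs (μ := volume) ((pcont_of_JSm hf).mul (pcont_Mt hb hl))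
    (continuous_cHess_re hχ j) (hcs_cHess_re hχc j)).1
  simp only [h4] at h3
  rw [integral_sub i1 i2] at h3
  linarith

end

end Vale.Agent.P284.H224.D
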