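import Vale.Agent.P284.H224.D.Main

/-!
# P284 (helper224), project D, module E2: the core in the letters of H661/D/Defs
-/

open scoped Manifold ContDiff ComplexOrder ComplexConjugate Topology
open MeasureTheory Set Filter Matrix

noncomputable section

namespace Vale.Agent.P284.H224.D

open Vale.Agent.P272.K Vale.Agent.P284.H661.D

theorem hatM_smul {n : ℕ} (c : ℂ) (A : Matrix (Fin n) (Fin n) ℂ) : hatM (c • A) = c • hatM A := by
  ext i k
  refine Fin.lastCases ?_ (fun a => ?_) i <;> refine Fin.lastCases ?_ (fun c => ?_) k <;> simp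

/-- **the energy identity for the determinants** -/
theorem coreK {n R : ℕ} {X : Type} [TopologicalSpace X] [T2Space X] [CompactSpace X]
    [ChartedSpace (Cm n) X] [IsManifold 𝓘(ℂ, Cm n) ω X]
    {W : Chart n X → Cm n → Matrix (Fin n) (Fin n) ℂ} (hW : IsKahler W) (C : ℝ) {psi : X → ℝ}
    {lam : X → Cm R → ℝ} (hp : SmoothFn (n := n) psi) (hl : JSm (n := n) lam) {χ : Cm R → ℝ}
    (hχ : ContDiff ℝ ∞ χ) (hχc : HasCompactSupport χ) (j : Fin R) :
    ∫ z, χ z * INT.intX (fun e y => (KJ C W lam e y z j).det.re) =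
      ∫ z, (cHess χ z j j).re * ∫ t in (0 : ℝ)..1, INT.intX (fun e y =>
        (lam (e.symm y) z - psi (e.symm y)) * (MT C W psi lam t e y z).det.re) := by
  have hb : INT.IsClosedForm (fun (e : Chart n X) y => (C : ℂ) • W e y) :=
    (INT.IsKahler.isClosedForm hW).smul _
  have hbh : ∀ (e : Chart n X) x, At e x → ((C : ℂ) • W e (e x)).IsHermitian := fun e x hx => by
    have h1 := (hW.posDef e x hx).isHermitian
    unfold Matrix.IsHermitian at h1 ⊢
    rw [Matrix.conjTranspose_smul, h1]
    simp
  have h1 : ∀ (e : Chart n X) y z, KJ C W lam e y z j =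
      Kt (fun (e : Chart n X) y => (C : ℂ) • W e y) lam e z j y := fun e y z => by
    unfold KJ Kt
    rw [hatM_smul]
  simp only [h1]
  exact core hb hbh hp hl hχ hχc j

end Vale.Agent.P284.H224.D
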