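import Vale.Agent.P284.H224.D.CoreK
import Vale.Agent.P284.H608.D.Wrap

/-!
# P284 (helper224), project D: `E2Stmt`
-/

noncomputable section

namespace Vale.Agent.P284.H224.D

theorem coreStmt : Vale.Agent.P284.H608.D.CoreStmt := by
  intro n R X _ _ _ _ _ W hW C psi lam hp hl j χ hχ hc
  exact coreK hW C hp hl hχ hc j

/-- **the energy identity** -/
theorem e2 : Vale.Agent.P284.H661.D.E2Stmt := Vale.Agent.P284.H608.D.e2_of coreStmt

end Vale.Agent.P284.H224.D
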