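import Vale.Agent.P284.H224.D.Green

/-!
# P284 (helper224), project D, module E2: integrals over coordinate slices
-/

open scoped Manifold ContDiff ComplexOrder ComplexConjugate Topology
open MeasureTheory Set Filter Matrix

noncomputable section

namespace Vale.Agent.P284.H224.D

open Vale.Agent.P272.K Vale.Agent.P272.K.INT Vale.Agent.P284.H395

variable {n R : ℕ}

/-- a bound of the support -/
theorem exists_supp_bd {E : Type*} [SeminormedAddCommGroup E] {Φ : E → ℝ}
    (hc : HasCompactSupport Φ) : ∃ M : ℝ, ∀ q, M < ‖q‖ → Φ q = 0 := by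
  obtain ⟨M, hM⟩ := hc.isBounded.exists_norm_le
  refine ⟨M, fun q hq => ?_⟩
  by_contra h
  exact absurd (hM q (subset_tsupport _ h)) (not_le.2 hq)

theorem insertNth_shift (j : Fin (R + 1)) (t : ℂ) (z' : Cm R) :
    (Fin.insertNth j t z' : Cm (R + 1)) = (Fin.insertNth j 0 z' : Cm (R + 1)) + Pi.single j t := by
  funext i
  refine Fin.succAboveCases j ?_ (fun k => ?_) i
  · simp
  · simp [Fin.succAbove_ne]

/-- integrals over slices vanish ⟹ the integral vanishes -/
theorem fub_zero {Φ : Cm n × Cm (R + 1) → ℝ} (hΦ : Continuous Φ) (hc : HasCompactSupport Φ)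
    (j : Fin (R + 1)) (h : ∀ z : Cm (R + 1), ∫ ζ : Cm (n + 1), Φ (am n z j ζ) = 0) :
    ∫ z, ∫ y, Φ (y, z) = 0 := by
  obtain ⟨M, hM⟩ := exists_supp_bd hc
  have hint : Integrable Φ := hΦ.integrable_of_hasCompactSupport hc
  have hint' : Integrable (fun q : Cm (R + 1) × Cm n => Φ (q.2, q.1)) := by
    have := hint.swap
    exact this
  have hG : Integrable (fun z : Cm (R + 1) => ∫ y, Φ (y, z)) := hint'.integral_prod_left
  set E := MeasurableEquiv.piFinSuccAbove (fun _ : Fin (R + 1) => ℂ) j with hE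
  have hmp : MeasurePreserving E.symm :=
    (MeasureTheory.volume_preserving_piFinSuccAbove (fun _ : Fin (R + 1) => ℂ) j).symm
  have h1 : ∫ z, ∫ y, Φ (y, z) = ∫ p : ℂ × (Fin R → ℂ), ∫ y, Φ (y, E.symm p) :=
    (hmp.integral_comp' (g := fun z => ∫ y, Φ (y, z))).symm
  have hG2 : Integrable (fun p : ℂ × (Fin R → ℂ) => ∫ y, Φ (y, E.symm p)) :=
    (hmp.integrable_comp_emb E.symm.measurableEmbedding).2 hG
  rw [h1]
  have h2 : ∫ p : ℂ × (Fin R → ℂ), ∫ y, Φ (y, E.symm p) =
      ∫ z' : Fin R → ℂ, ∫ t : ℂ, ∫ y, Φ (y, E.symm (t, z')) := integral_prod_symm _ hG2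
  rw [h2]
  have h3 : ∀ z' : Fin R → ℂ, ∫ t : ℂ, ∫ y, Φ (y, E.symm (t, z')) = 0 := by
    intro z'
    have hz : ∀ t, E.symm (t, z') = (Fin.insertNth j 0 z' : Cm (R + 1)) + Pi.single j t := by
      intro t
      rw [← insertNth_shift]
      rfl
    set z₀ : Cm (R + 1) := Fin.insertNth j 0 z' with hz₀
    have hcont : Continuous fun q : ℂ × Cm n => Φ (q.2, z₀ + Pi.single j q.1) := by
      refine hΦ.comp (continuous_snd.prodMk (continuous_const.add ?_))
      exact (continuous_single j).comp continuous_fst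
    have hcs : HasCompactSupport fun q : ℂ × Cm n => Φ (q.2, z₀ + Pi.single j q.1) := by
      refine HasCompactSupport.intro (isCompact_closedBall (0 : ℂ × Cm n) M) fun q hq => hM _ ?_
      rw [mem_closedBall_zero_iff, not_le] at hq
      refine hq.trans_le ?_
      rw [Prod.norm_def, Prod.norm_def]
      refine max_le ?_ (le_max_left _ _)
      refine le_trans ?_ (le_max_right _ _)
      have h4 : (z₀ + Pi.single j q.1 : Cm (R + 1)) j = q.1 := by simp [hz₀]
      calc ‖q.1‖ = ‖(z₀ + Pi.single j q.1 : Cm (R + 1)) j‖ := by rw [h4]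
        _ ≤ _ := norm_le_pi_norm _ j
    have hi := hcont.integrable_of_hasCompactSupport hcs (μ := volume)
    have h5 : ∫ t : ℂ, ∫ y, Φ (y, E.symm (t, z')) =
        ∫ q : ℂ × Cm n, Φ (q.2, z₀ + Pi.single j q.1) := by
      rw [show (volume : Measure (ℂ × Cm n)) = volume.prod volume from rfl, integral_prod _ hi]
      simp only [hz]
    rw [h5]
    set E' := MeasurableEquiv.piFinSuccAbove (fun _ : Fin (n + 1) => ℂ) (Fin.last n) with hE'
    have hmp' : MeasurePreserving E' :=
      MeasureTheory.volume_preserving_piFinSuccAbove (fun _ : Fin (n + 1) => ℂ) (Fin.last n)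
    have h6 := hmp'.integral_comp' (g := fun q : ℂ × (Fin n → ℂ) => Φ (q.2, z₀ + Pi.single j q.1))
    rw [← h z₀]
    refine h6.symm.trans (integral_congr_ae (Eventually.of_forall fun ζ => ?_))
    have e1 : (E' ζ).1 = ζ (Fin.last n) := rfl
    have e2 : (E' ζ).2 = Fin.init ζ := by
      funext a
      show ζ ((Fin.last n).succAbove a) = ζ a.castSucc
      rw [Fin.succAbove_last]
    simp only [am, e1, e2]
  simp only [h3, integral_zero]

end Vale.Agent.P284.H224.D
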