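import Vale.Agent.P284.H224.D.Defs
import Vale.Agent.P272.K.AMP.Calc

/-!
# P284 (helper224), project D, module E2: Green's formula against `adj b`, `b` a closed form
-/

open scoped Manifold ContDiff ComplexOrder ComplexConjugate Topology
open MeasureTheory Set Filter Matrix

noncomputable section

namespace Vale.Agent.P284.H224.D

open Vale.Agent.P272.K Vale.Agent.P272.K.INT Vale.Agent.P284.H395

variable {m : ℕ}

/-- `tr (adj B · i∂∂̄f)` -/
def tra (B : Matrix (Fin m) (Fin m) ℂ) (H : Matrix (Fin m) (Fin m) ℂ) : ℝ := (B.adjugate * H).trace.re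

/-- the gradient `∂f` -/
def grd (f : Cm m → ℝ) (z : Cm m) : Cm m := fun k => dz k (fun y => (f y : ℂ)) z

theorem conj_grd (f : Cm m → ℝ) (z : Cm m) (k : Fin m) :
    conj (grd f z k) = dzb k (fun y => (f y : ℂ)) z := by
  unfold grd
  rw [AMP.dzb_real_eq]

theorem adj_herm {B : Matrix (Fin m) (Fin m) ℂ} (hB : B.IsHermitian) : B.adjugate.IsHermitian := by
  unfold Matrix.IsHermitian
  rw [Matrix.adjugate_conjTranspose, hB.eq]

theorem pair_symm {A : Matrix (Fin m) (Fin m) ℂ} (hA : A.IsHermitian) (u v : Fin m → ℂ) :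
    (star u ⬝ᵥ A *ᵥ v).re = (star v ⬝ᵥ A *ᵥ u).re := by
  have h1 : star (star u ⬝ᵥ A *ᵥ v) = star v ⬝ᵥ A *ᵥ u := by
    rw [← Matrix.star_dotProduct_star, star_star, Matrix.star_mulVec, hA.eq,
      ← Matrix.dotProduct_mulVec]
  rw [← h1]
  simp

theorem grd_congr {f g : Cm m → ℝ} {z : Cm m} (h : f =ᶠ[𝓝 z] g) : grd f z = grd g z := by
  funext k
  exact INT.dz_congr (h.mono fun y hy => by simp only [hy])

theorem cHess_congr' {f g : Cm m → ℝ} {z : Cm m} (h : f =ᶠ[𝓝 z] g) : cHess f z = cHess g z := by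
  ext a b
  exact INT.dz_congr (INT.dzb_congr' (h.mono fun y hy => by simp only [hy]))

/-- one half of Green's formula -/
theorem green_half {V : Set (Cm m)} {b : Cm m → Matrix (Fin m) (Fin m) ℂ}
    (hb : ∀ z ∈ V, ∀ i j, ContDiffAt ℝ ∞ (fun y => b y i j) z)
    (hcl : ∀ z ∈ V, ∀ i k l, dz i (fun y => b y k l) z = dz k (fun y => b y i l) z)
    {f u : Cm m → ℝ} (hf : ∀ z ∈ V, ContDiffAt ℝ ∞ f z)
    (hu : ContDiff ℝ ∞ u) (hc : HasCompactSupport u) (hs : tsupport u ⊆ V) :
    ∫ z, ((star (grd f z) ⬝ᵥ (b z).adjugate *ᵥ grd u z).re + u z * tra (b z) (cHess f z)) = 0 := by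
  have h1 := local_ibp (a := grd f) hb hcl
    (fun z hz i => INT.smooth_dz (INT.ofReal_contDiffAt (hf z hz))) hu hc hs
  rw [← h1]
  refine integral_congr_ae (Eventually.of_forall fun z => ?_)
  have e1 : (Matrix.of fun j k => dz j (fun y => conj (grd f y k)) z) = cHess f z := by
    ext j k
    have : (fun y => conj (grd f y k)) = dzb k (fun y => (f y : ℂ)) := by
      funext y; exact conj_grd f y k
    rw [Matrix.of_apply, this]
    rfl
  simp only [Complex.add_re]
  rw [e1, Complex.re_ofReal_mul]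
  rfl

theorem tra_smooth {b H : Cm m → Matrix (Fin m) (Fin m) ℂ} {z : Cm m}
    (hb : ∀ i j, ContDiffAt ℝ ∞ (fun y => b y i j) z)
    (hH : ∀ i j, ContDiffAt ℝ ∞ (fun y => H y i j) z) :
    ContDiffAt ℝ ∞ (fun y => tra (b y) (H y)) z := by
  unfold tra
  simp only [Matrix.trace, Matrix.diag_apply, Matrix.mul_apply]
  refine Complex.reCLM.contDiff.contDiffAt.comp z ?_
  exact ContDiffAt.sum fun i _ => ContDiffAt.sum fun k _ => (contDiffAt_adj hb i k).mul (hH k i)

theorem pair_smooth {b : Cm m → Matrix (Fin m) (Fin m) ℂ} {u v : Cm m → Cm m} {z : Cm m}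
    (hb : ∀ i j, ContDiffAt ℝ ∞ (fun y => b y i j) z)
    (hu : ∀ i, ContDiffAt ℝ ∞ (fun y => u y i) z) (hv : ∀ i, ContDiffAt ℝ ∞ (fun y => v y i) z) :
    ContDiffAt ℝ ∞ (fun y => (star (u y) ⬝ᵥ (b y).adjugate *ᵥ v y).re) z :=
  Complex.reCLM.contDiff.contDiffAt.comp z (contDiffAt_adj_pair hb hu hv)

/-- **Green's formula** -/
theorem green {V : Set (Cm m)} (hV : IsOpen V) {b : Cm m → Matrix (Fin m) (Fin m) ℂ}
    (hb : ∀ z ∈ V, ∀ i j, ContDiffAt ℝ ∞ (fun y => b y i j) z)
    (hcl : ∀ z ∈ V, ∀ i k l, dz i (fun y => b y k l) z = dz k (fun y => b y i l) z)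
    (hh : ∀ z ∈ V, (b z).IsHermitian) {f g : Cm m → ℝ} (hf : ∀ z ∈ V, ContDiffAt ℝ ∞ f z)
    (hg : ContDiff ℝ ∞ g) (hc : HasCompactSupport g) (hs : tsupport g ⊆ V) :
    ∫ z, (g z * tra (b z) (cHess f z) - f z * tra (b z) (cHess g z)) = 0 := by
  -- a cut-off function
  obtain ⟨κ, hκ, hκc, -, hκ1, hκs⟩ : ∃ κ : Cm m → ℝ, ContDiff ℝ ∞ κ ∧ HasCompactSupport κ ∧
      (∀ z, 0 ≤ κ z ∧ κ z ≤ 1) ∧ (∀ᶠ z in 𝓝ˢ (tsupport g), κ z = 1) ∧ tsupport κ ⊆ V := by
    obtain ⟨L, hL, hgL, hLV⟩ := exists_compact_between hc hV hs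
    obtain ⟨φ, hφ1, hφ0, hφ⟩ := exists_contMDiffMap_one_nhds_of_subset_interior 𝓘(ℝ, Cm m) (n := (⊤ : ℕ∞))
      (s := tsupport g) (t := L) (isClosed_tsupport g) hgL
    have hsup : tsupport (φ : Cm m → ℝ) ⊆ L := by
      refine closure_minimal (fun z hz => ?_) hL.isClosed
      by_contra h
      exact hz (hφ0 z h)
    refine ⟨φ, φ.contMDiff.contDiff, hL.of_isClosed_subset (isClosed_tsupport _) hsup,
      fun z => ⟨(hφ z).1, (hφ z).2⟩, hφ1, hsup.trans hLV⟩
  set u : Cm m → ℝ := fun z => κ z * f z with hu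
  have hus : tsupport u ⊆ tsupport κ := by
    exact tsupport_mul_subset_left
  have huc : HasCompactSupport u := hκc.mul_right
  have huC : ContDiff ℝ ∞ u := by
    rw [contDiff_iff_contDiffAt]
    intro z
    by_cases hz : z ∈ tsupport κ
    · exact hκ.contDiffAt.mul (hf z (hκs hz))
    · have h1 : u =ᶠ[𝓝 z] fun _ => 0 :=
        notMem_tsupport_iff_eventuallyEq.1 fun h => hz (hus h)
      exact contDiffAt_const.congr_of_eventuallyEq h1
  have k1 := green_half hb hcl hf hg hc hs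
  have k2 := green_half hb hcl (f := g) (fun z _ => hg.contDiffAt) huC huc (hus.trans hκs)
  -- off the support of `g` all terms vanish
  have hg0 : ∀ z, z ∉ tsupport g → g z = 0 ∧ grd g z = 0 ∧ cHess g z = 0 := by
    intro z hz
    have h1 : g =ᶠ[𝓝 z] fun _ => 0 := notMem_tsupport_iff_eventuallyEq.1 hz
    refine ⟨h1.self_of_nhds, ?_, ?_⟩
    · rw [grd_congr h1]; funext k; simp [grd]
    · exact cHess_zero_of_notMem hz
  have hev : ∀ z ∈ tsupport g, u =ᶠ[𝓝 z] f := by
    intro z hz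
    have h1 : ∀ᶠ y in 𝓝 z, κ y = 1 := (eventually_nhdsSet_iff_forall.1 hκ1) z hz
    filter_upwards [h1] with y hy
    rw [hu]; simp only; rw [hy, one_mul]
  have e2 : ∀ z, (star (grd g z) ⬝ᵥ (b z).adjugate *ᵥ grd u z).re + u z * tra (b z) (cHess g z) =
      (star (grd f z) ⬝ᵥ (b z).adjugate *ᵥ grd g z).re + f z * tra (b z) (cHess g z) := by
    intro z
    by_cases hz : z ∈ tsupport g
    · rw [grd_congr (hev z hz), (hev z hz).self_of_nhds,
        pair_symm (adj_herm (hh z (hs hz)))]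
    · obtain ⟨-, h2, h3⟩ := hg0 z hz
      rw [h2, h3]
      simp [tra]
  simp only [e2] at k2
  -- integrability
  have hzero : ∀ {F : Cm m → ℝ}, (∀ z, z ∉ tsupport g → F z = 0) →
      (∀ z ∈ V, ContinuousAt F z) → Integrable F := by
    intro F hF0 hFc
    refine Continuous.integrable_of_hasCompactSupport ?_ (HasCompactSupport.intro hc hF0)
    rw [continuous_iff_continuousAt]
    intro z
    by_cases hz : z ∈ tsupport g
    · exact hFc z (hs hz)
    · have h1 : F =ᶠ[𝓝 z] fun _ => 0 := by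
        filter_upwards [(isClosed_tsupport g).isOpen_compl.mem_nhds hz] with y hy using hF0 y hy
      exact continuousAt_const.congr h1.symm
  have i1 : Integrable fun z => (star (grd f z) ⬝ᵥ (b z).adjugate *ᵥ grd g z).re +
      g z * tra (b z) (cHess f z) := by
    refine hzero (fun z hz => ?_) fun z hz => ?_
    · obtain ⟨h1, h2, -⟩ := hg0 z hz
      rw [h1, h2]; simp
    · exact (((pair_smooth (hb z hz) (fun i => INT.smooth_dz (INT.ofReal_contDiffAt (hf z hz)))
        (fun i => INT.smooth_dz (INT.ofReal_contDiffAt hg.contDiffAt))).add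
        (hg.contDiffAt.mul (tra_smooth (hb z hz)
          fun i j => INT.smooth_cHess (hf z hz) i j))).continuousAt)
  have i2 : Integrable fun z => (star (grd f z) ⬝ᵥ (b z).adjugate *ᵥ grd g z).re +
      f z * tra (b z) (cHess g z) := by
    refine hzero (fun z hz => ?_) fun z hz => ?_
    · obtain ⟨-, h2, h3⟩ := hg0 z hz
      rw [h2, h3]; simp [tra]
    · exact (((pair_smooth (hb z hz) (fun i => INT.smooth_dz (INT.ofReal_contDiffAt (hf z hz)))
        (fun i => INT.smooth_dz (INT.ofReal_contDiffAt hg.contDiffAt))).add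
        ((hf z hz).mul (tra_smooth (hb z hz)
          fun i j => INT.smooth_cHess hg.contDiffAt i j))).continuousAt)
  have k3 := integral_sub i1 i2
  rw [k1, k2, sub_zero] at k3
  rw [← k3]
  refine integral_congr_ae (Eventually.of_forall fun z => ?_)
  simp only
  ring

end Vale.Agent.P284.H224.D
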