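import Vale.Agent.P284.H224.D.Slice

/-!
# P284 (helper224), project D, module E2: `HB lam e z j y` is smooth in `(y, z)`
-/

open scoped Manifold ContDiff ComplexOrder ComplexConjugate Topology
open MeasureTheory Set Filter Matrix

noncomputable section

namespace Vale.Agent.P284.H224.D

open Vale.Agent.P272.K Vale.Agent.P272.K.INT Vale.Agent.P284.H395

variable {n R : ℕ}

/-- the linear part of `am` -/
def aL (n : ℕ) (j : Fin R) : Cm (n + 1) →L[ℝ] (Cm n × Cm R) :=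
  (iL n).prod ((ContinuousLinearMap.single ℝ (fun _ : Fin R => ℂ) j).comp
    (ContinuousLinearMap.proj (Fin.last n)))

theorem am_eq (z : Cm R) (j : Fin R) : am n z j = fun ζ => aL n j ζ + ((0 : Cm n), z) := by
  funext ζ
  refine Prod.ext ?_ ?_
  · simp [am, aL, iL_apply]
  · simp [am, aL, add_comm]

theorem am_hasFDerivAt (z : Cm R) (j : Fin R) (ζ : Cm (n + 1)) :
    HasFDerivAt (am n z j) (aL n j) ζ := by
  rw [am_eq]
  exact (aL n j).hasFDerivAt.add_const _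

/-- `∂/∂ζ_i` on `ℂⁿ × ℂᴿ` -/
def dzP (j : Fin R) (i : Fin (n + 1)) (F : Cm n × Cm R → ℂ) (q : Cm n × Cm R) : ℂ :=
  (fderiv ℝ F q (aL n j (Pi.single i 1)) -
    Complex.I * fderiv ℝ F q (aL n j (Pi.single i Complex.I))) / 2

/-- `∂/∂ζ̄_i` on `ℂⁿ × ℂᴿ` -/
def dzbP (j : Fin R) (i : Fin (n + 1)) (F : Cm n × Cm R → ℂ) (q : Cm n × Cm R) : ℂ :=
  (fderiv ℝ F q (aL n j (Pi.single i 1)) +
    Complex.I * fderiv ℝ F q (aL n j (Pi.single i Complex.I))) / 2

theorem dz_am {F : Cm n × Cm R → ℂ} {z : Cm R} {j : Fin R} {ζ : Cm (n + 1)}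
    (hF : DifferentiableAt ℝ F (am n z j ζ)) (i : Fin (n + 1)) :
    dz i (fun ζ => F (am n z j ζ)) ζ = dzP j i F (am n z j ζ) := by
  have h1 : HasFDerivAt (fun ζ => F (am n z j ζ))
      ((fderiv ℝ F (am n z j ζ)).comp (aL n j)) ζ :=
    HasFDerivAt.comp ζ (g := F) hF.hasFDerivAt (am_hasFDerivAt z j ζ)
  unfold dz dzP
  rw [h1.fderiv]
  rfl

theorem dzb_am {F : Cm n × Cm R → ℂ} {z : Cm R} {j : Fin R} {ζ : Cm (n + 1)}
    (hF : DifferentiableAt ℝ F (am n z j ζ)) (i : Fin (n + 1)) :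
    dzb i (fun ζ => F (am n z j ζ)) ζ = dzbP j i F (am n z j ζ) := by
  have h1 : HasFDerivAt (fun ζ => F (am n z j ζ))
      ((fderiv ℝ F (am n z j ζ)).comp (aL n j)) ζ :=
    HasFDerivAt.comp ζ (g := F) hF.hasFDerivAt (am_hasFDerivAt z j ζ)
  unfold dzb dzbP
  rw [h1.fderiv]
  rfl

theorem dzP_smooth {F : Cm n × Cm R → ℂ} {q : Cm n × Cm R} (hF : ContDiffAt ℝ ∞ F q) (j : Fin R)
    (i : Fin (n + 1)) : ContDiffAt ℝ ∞ (dzP j i F) q := by
  have h1 : ContDiffAt ℝ ∞ (fderiv ℝ F) q := hF.fderiv_right (m := ∞) (by simp)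
  unfold dzP
  exact ((h1.clm_apply contDiffAt_const).sub
    (contDiffAt_const.mul (h1.clm_apply contDiffAt_const))).div_const _

theorem dzbP_smooth {F : Cm n × Cm R → ℂ} {q : Cm n × Cm R} (hF : ContDiffAt ℝ ∞ F q) (j : Fin R)
    (i : Fin (n + 1)) : ContDiffAt ℝ ∞ (dzbP j i F) q := by
  have h1 : ContDiffAt ℝ ∞ (fderiv ℝ F) q := hF.fderiv_right (m := ∞) (by simp)
  unfold dzbP
  exact ((h1.clm_apply contDiffAt_const).add
    (contDiffAt_const.mul (h1.clm_apply contDiffAt_const))).div_const _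

variable {X : Type} [TopologicalSpace X] [ChartedSpace (Cm n) X] {l : X → Cm R → ℝ}
  {e : Chart n X} {x : X} {z : Cm R} {j : Fin R}

theorem L_smooth (hl : JSm (n := n) l) (hx : At e x) (z : Cm R) :
    ContDiffAt ℝ ∞ (fun q : Cm n × Cm R => (l (e.symm q.1) q.2 : ℂ)) (e x, z) :=
  Complex.ofRealCLM.contDiff.contDiffAt.comp _ (hl e x hx z)

theorem L_smooth' (hl : JSm (n := n) l) (he : e ∈ atlas (Cm n) X) {q : Cm n × Cm R}
    (hq : q.1 ∈ e.target) :
    ContDiffAt ℝ ∞ (fun q : Cm n × Cm R => (l (e.symm q.1) q.2 : ℂ)) q := by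
  have := L_smooth hl ⟨he, e.map_target hq⟩ q.2
  rwa [e.right_inv hq] at this

/-- the bordered Hessian in terms of the function on `ℂⁿ × ℂᴿ` -/
theorem HB_eq (hl : JSm (n := n) l) {y : Cm n} (he : e ∈ atlas (Cm n) X) (hy : y ∈ e.target)
    (z : Cm R) (i k : Fin (n + 1)) :
    HB l e z j y i k =
      dzP j i (dzbP j k fun q : Cm n × Cm R => (l (e.symm q.1) q.2 : ℂ)) (y, z) := by
  have hL : ContDiffAt ℝ ∞ (fun q : Cm n × Cm R => (l (e.symm q.1) q.2 : ℂ)) (y, z) :=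
    L_smooth' hl he hy
  have ha : am n z j (Fin.snoc y 0) = (y, z) := by rw [am_snoc]; simp
  have h1 : (dzb k fun ζ => (pj l e z j ζ : ℂ)) =ᶠ[𝓝 (Fin.snoc y 0)] fun ζ =>
      dzbP j k (fun q : Cm n × Cm R => (l (e.symm q.1) q.2 : ℂ)) (am n z j ζ) := by
    have hc : ContinuousAt (fun ζ => (am n z j ζ).1) (Fin.snoc y 0 : Cm (n + 1)) :=
      (continuous_fst.comp (am_smooth z j).continuous).continuousAt
    have h2 : ∀ᶠ ζ in 𝓝 (Fin.snoc y 0 : Cm (n + 1)), ContDiffAt ℝ ∞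
        (fun q : Cm n × Cm R => (l (e.symm q.1) q.2 : ℂ)) (am n z j ζ) := by
      have h3 := hc.eventually (e.open_target.mem_nhds (by show (am n z j (Fin.snoc y 0)).1 ∈ e.target; rw [ha]; exact hy))
      filter_upwards [h3] with ζ hζ
      exact L_smooth' hl he hζ
    filter_upwards [h2] with ζ hζ
    exact dzb_am (F := fun q : Cm n × Cm R => (l (e.symm q.1) q.2 : ℂ))
      (hζ.differentiableAt (by simp)) k
  show dz i (dzb k fun ζ => (pj l e z j ζ : ℂ)) (Fin.snoc y 0) = _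
  rw [INT.dz_congr h1, dz_am, ha]
  rw [ha]
  exact (dzbP_smooth hL j k).differentiableAt (by simp)

theorem HB_smooth (hl : JSm (n := n) l) (hx : At e x) (z : Cm R) (i k : Fin (n + 1)) :
    ContDiffAt ℝ ∞ (fun q : Cm n × Cm R => HB l e q.2 j q.1 i k) (e x, z) := by
  have h1 := dzP_smooth (dzbP_smooth (L_smooth hl hx z) j k) j i
  refine h1.congr_of_eventuallyEq ?_
  have h2 : ∀ᶠ q : Cm n × Cm R in 𝓝 (e x, z), q.1 ∈ e.target :=
    continuousAt_fst.eventually (e.open_target.mem_nhds (e.map_source hx.2))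
  filter_upwards [h2] with q hq
  rw [HB_eq hl hx.1 hq]

/-- a smooth function on `X` -/
theorem JSm.of_smoothFn {psi : X → ℝ} (h : SmoothFn (n := n) psi) :
    JSm (n := n) (R := R) fun x _ => psi x := by
  intro e x hx z
  exact ContDiffAt.comp (g := fun y => psi (e.symm y)) (f := Prod.fst) (e x, z) (h e x hx)
    contDiffAt_fst

/-- a smooth function on `ℂᴿ` -/
theorem JSm.of_right {χ : Cm R → ℝ} (h : ContDiff ℝ ∞ χ) :
    JSm (n := n) (X := X) fun _ z => χ z := by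
  intro e x hx z
  exact h.contDiffAt.comp (e x, z) contDiffAt_snd

theorem JSm.add {f g : X → Cm R → ℝ} (hf : JSm (n := n) f) (hg : JSm (n := n) g) :
    JSm (n := n) fun x z => f x z + g x z := fun e x hx z => (hf e x hx z).add (hg e x hx z)

theorem JSm.sub {f g : X → Cm R → ℝ} (hf : JSm (n := n) f) (hg : JSm (n := n) g) :
    JSm (n := n) fun x z => f x z - g x z := fun e x hx z => (hf e x hx z).sub (hg e x hx z)

theorem JSm.mul {f g : X → Cm R → ℝ} (hf : JSm (n := n) f) (hg : JSm (n := n) g) :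
    JSm (n := n) fun x z => f x z * g x z := fun e x hx z => (hf e x hx z).mul (hg e x hx z)

theorem JSm.const_mul {f : X → Cm R → ℝ} (c : ℝ) (hf : JSm (n := n) f) :
    JSm (n := n) fun x z => c * f x z := fun e x hx z => contDiffAt_const.mul (hf e x hx z)

end Vale.Agent.P284.H224.D
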