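import Vale.Agent.P284.H224.D.Joint
import Vale.Agent.P284.H608.D.Dens
import Vale.Agent.P284.H619.D.Smo

/-!
# P284 (helper224), project D, module E2: the integration by parts for a function supported in a chart
-/

open scoped Manifold ContDiff ComplexOrder ComplexConjugate Topology
open MeasureTheory Set Filter Matrix

noncomputable section

namespace Vale.Agent.P284.H224.D

open Vale.Agent.P272.K Vale.Agent.P272.K.INT Vale.Agent.P284.H395 Vale.Agent.P284.H619.D

variable {n R : ℕ} {X : Type} [TopologicalSpace X]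

/-- the integrand of Green's formula -/
def PhiD (b : Chart n X → Cm n → Matrix (Fin n) (Fin n) ℂ) (l f : X → Cm R → ℝ) (χ : Cm R → ℝ)
    (j : Fin R) (z : Cm R) (e : Chart n X) (y : Cm n) : ℝ :=
  χ z * tra (Kt b l e z j y) (HB f e z j y) -
    f (e.symm y) z * tra (Kt b l e z j y) (HB (fun _ z => χ z) e z j y)

variable [ChartedSpace (Cm n) X]

theorem continuous_tra {m : ℕ} :
    Continuous fun p : Matrix (Fin m) (Fin m) ℂ × Matrix (Fin m) (Fin m) ℂ => tra p.1 p.2 := by
  unfold tra
  refine Complex.continuous_re.comp (Continuous.matrix_trace ?_)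
  exact (Continuous.matrix_adjugate continuous_fst).matrix_mul continuous_snd

theorem pcont_tra {T : Type*} [TopologicalSpace T] {m : ℕ}
    {F G : T → Chart n X → Cm n → Matrix (Fin m) (Fin m) ℂ} (h : MCont F) (h' : MCont G) :
    PCont (fun t e y => tra (F t e y) (G t e y)) := by
  intro e x hx t
  exact ContinuousAt.comp (g := fun p : Matrix (Fin m) (Fin m) ℂ × Matrix (Fin m) (Fin m) ℂ =>
    tra p.1 p.2) (f := fun q : T × Cm n => (F q.1 e q.2, G q.1 e q.2))
    continuous_tra.continuousAt ((h e x hx t).prodMk (h' e x hx t))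

section
variable [IsManifold 𝓘(ℂ, Cm n) ω X] {b : Chart n X → Cm n → Matrix (Fin n) (Fin n) ℂ}
  {l f : X → Cm R → ℝ} {χ : Cm R → ℝ} {j : Fin R}

omit [IsManifold 𝓘(ℂ, Cm n) ω X] in
theorem mcont_Kt (hb : IsClosedForm b) (hl : JSm (n := n) l) (j : Fin R) :
    MCont (fun z (e : Chart n X) y => Kt b l e z j y) := by
  have h1 : MCont (fun (_ : Cm R) (e : Chart n X) y => hatM (b e y)) :=
    MCont.hat (MCont.const fun e x hx i k => (hb.smooth e x hx i k).continuousAt)
  exact h1.add (mcont_HB hl j)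

omit [IsManifold 𝓘(ℂ, Cm n) ω X] in
theorem pcont_Phi (hb : IsClosedForm b) (hl : JSm (n := n) l) (hf : JSm (n := n) f)
    (hχ : ContDiff ℝ ∞ χ) (j : Fin R) :
    PCont (PhiD (n := n) b l f χ j : Cm R → Chart n X → Cm n → ℝ) := by
  have h1 : PCont (fun z (e : Chart n X) (_ : Cm n) => χ z) := fun e x hx z =>
    (hχ.continuous.comp continuous_fst).continuousAt
  exact (h1.mul (pcont_tra (mcont_Kt hb hl j) (mcont_HB hf j))).sub
    ((pcont_of_JSm hf).mul (pcont_tra (mcont_Kt hb hl j) (mcont_HB (JSm.of_right hχ) j)))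

theorem Kt_change (hb : IsClosedForm b) (hl : JSm (n := n) l) {e e' : Chart n X} {x : X}
    (hx : At e x) (hx' : At e' x) (z : Cm R) (j : Fin R) :
    Kt b l e z j (e x) = (H608.D.bd (jacM e e' x) 1).transpose * Kt b l e' z j (e' x) *
      (H608.D.bd (jacM e e' x) 1).map (starRingEnd ℂ) := by
  unfold Kt
  rw [H608.D.HB_change hl hx hx' z j, Matrix.mul_add, Matrix.add_mul]
  congr 1
  rw [H608.D.hatM_eq, H608.D.hatM_eq, hb.form e e' x hx hx', H608.D.bd_transpose, H608.D.bd_map,
    H608.D.bd_mul, H608.D.bd_mul]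
  simp

theorem isDensity_tra (hb : IsClosedForm b) (hl : JSm (n := n) l) (hf : JSm (n := n) f) (z : Cm R)
    (j : Fin R) :
    IsDensity (fun (e : Chart n X) y => tra (Kt b l e z j y) (HB f e z j y)) where
  cont e x hx := (pcont_tra (mcont_Kt hb hl j) (mcont_HB hf j)).at_t z hx
  change e e' x hx hx' := by
    show tra _ _ = tra _ _ * _
    unfold tra
    rw [Kt_change hb hl hx hx' z j, H608.D.HB_change hf hx hx' z j, adj_trace_change,
      Complex.re_ofReal_mul, H608.D.det_bd, mul_one, mul_comm]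

theorem isDensity_Phi (hb : IsClosedForm b) (hl : JSm (n := n) l) (hf : JSm (n := n) f)
    (hχ : ContDiff ℝ ∞ χ) (j : Fin R) (z : Cm R) :
    IsDensity (PhiD (n := n) b l f χ j z : Chart n X → Cm n → ℝ) :=
  ((isDensity_tra hb hl hf z j).const_mul _).sub
    (H608.D.isDensity_smul (isDensity_tra hb hl (JSm.of_right hχ) z j) (f := fun x => f x z)
      fun _ _ hx => hf.left hx z)

end

omit [ChartedSpace (Cm n) X] in
/-- vanishing of `HB` off the support -/
theorem HB_zero {f : X → Cm R → ℝ} {K : Set X} (hK : IsClosed K) (hf0 : ∀ x, x ∉ K → ∀ z, f x z = 0)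
    {e : Chart n X} {y : Cm n} (hy : y ∈ e.target) (hyK : e.symm y ∉ K) (z : Cm R) (j : Fin R) (t : ℂ) :
    pj f e z j =ᶠ[𝓝 (Fin.snoc y t)] fun _ => 0 := by
  have hc : ContinuousAt (fun ζ : Cm (n + 1) => e.symm (Fin.init ζ)) (Fin.snoc y t) := by
    refine ContinuousAt.comp (g := e.symm) (f := fun ζ : Cm (n + 1) => Fin.init ζ) ?_
      (iL n).continuous.continuousAt
    rw [Fin.init_snoc]
    exact e.continuousAt_symm hy
  have h1 : Kᶜ ∈ 𝓝 (e.symm (Fin.init (Fin.snoc y t : Cm (n + 1)))) := by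
    rw [Fin.init_snoc]
    exact hK.isOpen_compl.mem_nhds hyK
  filter_upwards [hc.eventually h1] with ζ hζ
  exact hf0 _ hζ _

theorem cHess_zero' {m : ℕ} {f : Cm m → ℝ} {z : Cm m} (h : f =ᶠ[𝓝 z] fun _ => 0) : cHess f z = 0 := by
  rw [cHess_congr' h]
  exact cHess_zero_of_notMem (by simp)

omit [ChartedSpace (Cm n) X] in
/-- `χ` as a function on `X × ℂᴿ` off its support -/
theorem HB_zero_right {χ : Cm R → ℝ} {e : Chart n X} {y : Cm n} {z : Cm R} (hz : z ∉ tsupport χ)
    (j : Fin R) : HB (fun (_ : X) z => χ z) e z j y = 0 := by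
  refine cHess_zero' ?_
  have hc : ContinuousAt (fun ζ : Cm (n + 1) => (am n z j ζ).2) (Fin.snoc y 0) :=
    (continuous_snd.comp (am_smooth z j).continuous).continuousAt
  have h1 : (tsupport χ)ᶜ ∈ 𝓝 (am n z j (Fin.snoc y 0)).2 := by
    rw [am_snoc]
    simpa using (isClosed_tsupport χ).isOpen_compl.mem_nhds hz
  filter_upwards [hc.eventually h1] with ζ hζ
  exact image_eq_zero_of_notMem_tsupport (f := χ) hζ

theorem tra_zero {m : ℕ} (A : Matrix (Fin m) (Fin m) ℂ) : tra A 0 = 0 := by simp [tra]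

theorem am_closedEmbedding (z : Cm R) (j : Fin R) : Topology.IsClosedEmbedding (am n z j) := by
  rw [am_eq]
  have h1 : Topology.IsClosedEmbedding (aL n j) := by
    have h2 : LinearMap.ker (aL n j).toLinearMap = ⊥ := by
      rw [LinearMap.ker_eq_bot']
      intro ζ hζ
      have h3 : aL n j ζ = 0 := hζ
      have h4 : (Fin.init ζ : Cm n) = 0 := by
        have := congrArg Prod.fst h3
        simpa [aL, iL_apply] using this
      have h5 : ζ (Fin.last n) = 0 := by
        have := congrFun (congrArg Prod.snd h3) j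
        simpa [aL] using this
      rw [← Fin.snoc_init_self ζ, h4, h5]
      funext i
      refine Fin.lastCases ?_ (fun a => ?_) i <;> simp
    exact LinearMap.isClosedEmbedding_of_injective h2
  exact (Homeomorph.addRight ((0 : Cm n), z)).isClosedEmbedding.comp h1

theorem isOpen_V {U : Set (Cm n)} (hU : IsOpen U) :
    IsOpen {ζ : Cm (n + 1) | (Fin.init ζ : Cm n) ∈ U} := hU.preimage (iL n).continuous

variable {b : Chart n X → Cm n → Matrix (Fin n) (Fin n) ℂ}
  {l f : X → Cm R → ℝ} {χ : Cm R → ℝ} {j : Fin R}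

/-- **Green's formula on a slice** -/
theorem slice_green [CompactSpace X] (hb : IsClosedForm b)
    (hbh : ∀ e x, At e x → (b e (e x)).IsHermitian) (hl : JSm (n := n) l) (hf : JSm (n := n) f)
    (hχ : ContDiff ℝ ∞ χ) (hχc : HasCompactSupport χ) {e : Chart n X} (he : e ∈ atlas (Cm n) X)
    {K : Set X} (hK : IsClosed K) (hKe : K ⊆ e.source) (hf0 : ∀ x, x ∉ K → ∀ z, f x z = 0)
    (z : Cm R) (j : Fin R) :
    ∫ ζ : Cm (n + 1), e.target.indicator (PhiD b l f χ j (am n z j ζ).2 e) (am n z j ζ).1 = 0 := by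
  have hKc : IsCompact (e '' K) :=
    hK.isCompact.image_of_continuousOn (e.continuousOn.mono hKe)
  have hKt : e '' K ⊆ e.target := by
    rintro _ ⟨x, hx, rfl⟩; exact e.map_source (hKe hx)
  -- a cut-off function
  obtain ⟨κ, hκ, hκc, hκ1, hκs⟩ : ∃ κ : Cm n → ℝ, ContDiff ℝ ∞ κ ∧ HasCompactSupport κ ∧
      (∀ᶠ y in 𝓝ˢ (e '' K), κ y = 1) ∧ tsupport κ ⊆ e.target := by
    obtain ⟨L, hL, hgL, hLV⟩ := exists_compact_between hKc e.open_target hKt
    obtain ⟨φ, hφ1, hφ0, hφ⟩ := exists_contMDiffMap_one_nhds_of_subset_interior 𝓘(ℝ, Cm n)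
      (n := (⊤ : ℕ∞)) (s := e '' K) (t := L) hKc.isClosed hgL
    have hsup : tsupport (φ : Cm n → ℝ) ⊆ L := by
      refine closure_minimal (fun z hz => ?_) hL.isClosed
      by_contra h
      exact hz (hφ0 z h)
    exact ⟨φ, φ.contMDiff.contDiff, hL.of_isClosed_subset (isClosed_tsupport _) hsup, hφ1,
      hsup.trans hLV⟩
  set V : Set (Cm (n + 1)) := {ζ | (Fin.init ζ : Cm n) ∈ e.target} with hV
  set G : Cm n × Cm R → ℝ := fun q => κ q.1 * χ q.2 with hG
  set g : Cm (n + 1) → ℝ := fun ζ => G (am n z j ζ) with hg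
  have hGs : ContDiff ℝ ∞ G := (hκ.comp contDiff_fst).mul (hχ.comp contDiff_snd)
  have hgs : ContDiff ℝ ∞ g := hGs.comp (am_smooth z j)
  have hGc : HasCompactSupport G := by
    refine HasCompactSupport.intro (hκc.isCompact.prod hχc.isCompact) fun q hq => ?_
    rw [mem_prod, not_and_or] at hq
    rcases hq with hq | hq
    · show κ q.1 * χ q.2 = 0
      rw [image_eq_zero_of_notMem_tsupport hq, zero_mul]
    · show κ q.1 * χ q.2 = 0
      rw [image_eq_zero_of_notMem_tsupport hq, mul_zero]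
  have hgc : HasCompactSupport g := hGc.comp_isClosedEmbedding (am_closedEmbedding z j)
  have hgsup : tsupport g ⊆ {ζ | (Fin.init ζ : Cm n) ∈ tsupport κ} := by
    refine closure_minimal (fun ζ hζ => ?_) ((isClosed_tsupport κ).preimage (iL n).continuous)
    by_contra h
    refine hζ ?_
    show κ (Fin.init ζ) * _ = 0
    rw [image_eq_zero_of_notMem_tsupport h, zero_mul]
  have hpt : ∀ ζ ∈ V, ∀ {u : X → Cm R → ℝ}, JSm (n := n) u → ContDiffAt ℝ ∞ (pj u e z j) ζ := by
    intro ζ hζ u hu
    have := hu.pj (z := z) (j := j) (t := ζ (Fin.last n)) he hζ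
    rwa [Fin.snoc_init_self] at this
  have key := green (isOpen_V e.open_target)
    (b := fun ζ => hatM (b e (Fin.init ζ)) + cHess (pj l e z j) ζ)
    (fun ζ hζ i k => (hat_smooth hb he hζ i k).add (INT.smooth_cHess (hpt ζ hζ hl) i k))
    (fun ζ hζ i k m => ?_) (fun ζ hζ => ?_) (f := pj f e z j) (fun ζ hζ => hpt ζ hζ hf) hgs hgc
    (hgsup.trans fun ζ hζ => hκs hζ)
  rotate_left
  · have f1 := (hat_smooth hb he hζ k m).differentiableAt (by simp)
    have f2 := (hat_smooth hb he hζ i m).differentiableAt (by simp)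
    have g1 := (INT.smooth_cHess (hpt ζ hζ hl) k m).differentiableAt (by simp)
    have g2 := (INT.smooth_cHess (hpt ζ hζ hl) i m).differentiableAt (by simp)
    simp only [Matrix.add_apply]
    rw [INT.dz_add f1 g1, INT.dz_add f2 g2, hat_closed hb he hζ,
      INT.cHess_closed (hpt ζ hζ hl)]
  · have h1 := hbh e (e.symm (Fin.init ζ)) ⟨he, e.map_target hζ⟩
    rw [e.right_inv hζ] at h1
    exact (hat_herm h1).add (C2.cHess_isHermitian ((hpt ζ hζ hl).of_le two_le_inf))
  rw [← key]
  refine integral_congr_ae (Eventually.of_forall fun ζ => ?_)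
  simp only
  by_cases hζ : ζ ∈ V
  · rw [indicator_of_mem (show (am n z j ζ).1 ∈ e.target from hζ)]
    unfold PhiD
    rw [Kt_am]
    have hB : ∀ u : X → Cm R → ℝ, HB u e (am n z j ζ).2 j (am n z j ζ).1 = cHess (pj u e z j) ζ := by
      intro u
      unfold am
      simp only
      rw [HB_shift, Fin.snoc_init_self]
    rw [hB, hB]
    by_cases hζK : e.symm (Fin.init ζ) ∈ K
    · have h1 : (Fin.init ζ : Cm n) ∈ e '' K := ⟨_, hζK, e.right_inv hζ⟩
      have h2 : ∀ᶠ y in 𝓝 (Fin.init ζ : Cm n), κ y = 1 := (eventually_nhdsSet_iff_forall.1 hκ1) _ h1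
      have h3 : g =ᶠ[𝓝 ζ] pj (fun _ z => χ z) e z j := by
        have hc : ContinuousAt (fun ζ : Cm (n + 1) => (Fin.init ζ : Cm n)) ζ :=
          (iL n).continuous.continuousAt
        filter_upwards [hc.eventually h2] with η hη
        show κ (Fin.init η) * _ = _
        rw [hη, one_mul]
        rfl
      rw [cHess_congr' h3, h3.self_of_nhds]
      rfl
    · have h1 := HB_zero hK hf0 hζ hζK z j (ζ (Fin.last n))
      rw [Fin.snoc_init_self] at h1
      rw [cHess_zero' h1, h1.self_of_nhds, tra_zero]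
      have h2 : f (e.symm (am n z j ζ).1) (am n z j ζ).2 = 0 := hf0 _ hζK _
      rw [h2]
      ring
  · rw [indicator_of_notMem (show (am n z j ζ).1 ∉ e.target from hζ)]
    have h1 : ζ ∉ tsupport g := fun h => hζ (hκs (hgsup h))
    have h2 : g =ᶠ[𝓝 ζ] fun _ => 0 := notMem_tsupport_iff_eventuallyEq.1 h1
    rw [h2.self_of_nhds, cHess_zero' h2, tra_zero]
    ring

/-- the extension by zero of the integrand is continuous with compact support -/
theorem Phi_cont [CompactSpace X] (hb : IsClosedForm b) (hl : JSm (n := n) l)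
    (hf : JSm (n := n) f) (hχ : ContDiff ℝ ∞ χ) (hχc : HasCompactSupport χ) {e : Chart n X}
    (he : e ∈ atlas (Cm n) X) {K : Set X} (hK : IsClosed K) (hKe : K ⊆ e.source)
    (hf0 : ∀ x, x ∉ K → ∀ z, f x z = 0) (j : Fin R) :
    Continuous (fun q : Cm n × Cm R => e.target.indicator (PhiD b l f χ j q.2 e) q.1) ∧
      HasCompactSupport (fun q : Cm n × Cm R => e.target.indicator (PhiD b l f χ j q.2 e) q.1) := by
  have hKc : IsCompact (e '' K) :=
    hK.isCompact.image_of_continuousOn (e.continuousOn.mono hKe)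
  have h0 : ∀ q : Cm n × Cm R, q.1 ∉ e '' K →
      e.target.indicator (PhiD b l f χ j q.2 e) q.1 = 0 := by
    intro q hq
    by_cases hy : q.1 ∈ e.target
    · rw [indicator_of_mem hy]
      have hyK : e.symm q.1 ∉ K := fun h => hq ⟨_, h, e.right_inv hy⟩
      have h1 : HB f e q.2 j q.1 = 0 := cHess_zero' (HB_zero hK hf0 hy hyK q.2 j 0)
      unfold PhiD
      rw [h1, tra_zero, hf0 _ hyK]
      ring
    · rw [indicator_of_notMem hy]
  have h0' : ∀ q : Cm n × Cm R, q.2 ∉ tsupport χ →
      e.target.indicator (PhiD b l f χ j q.2 e) q.1 = 0 := by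
    intro q hq
    by_cases hy : q.1 ∈ e.target
    · rw [indicator_of_mem hy]
      unfold PhiD
      rw [HB_zero_right hq, tra_zero, image_eq_zero_of_notMem_tsupport hq]
      ring
    · rw [indicator_of_notMem hy]
  refine ⟨?_, ?_⟩
  · rw [continuous_iff_continuousAt]
    rintro ⟨y, z⟩
    by_cases hy : y ∈ e.target
    · have h1 : ContinuousAt (fun q : Cm n × Cm R => PhiD b l f χ j q.2 e q.1) (y, z) :=
        ContinuousAt.comp (f := fun q : Cm n × Cm R => (q.2, q.1)) (x := (y, z))
          ((pcont_Phi hb hl hf hχ j).contAt he z hy) (by fun_prop)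
      refine h1.congr ?_
      have h2 : ∀ᶠ q : Cm n × Cm R in 𝓝 (y, z), q.1 ∈ e.target :=
        continuousAt_fst.eventually (e.open_target.mem_nhds hy)
      filter_upwards [h2] with q hq
      rw [indicator_of_mem hq]
    · have hy' : y ∉ e '' K := by
        rintro ⟨x, hx, rfl⟩
        exact hy (e.map_source (hKe hx))
      have h2 : ∀ᶠ q : Cm n × Cm R in 𝓝 (y, z), q.1 ∈ (e '' K)ᶜ :=
        continuousAt_fst.eventually (hKc.isClosed.isOpen_compl.mem_nhds hy')
      refine (continuousAt_const (y := (0 : ℝ))).congr ?_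
      filter_upwards [h2] with q hq
      exact (h0 q hq).symm
  · refine HasCompactSupport.intro (hKc.prod hχc.isCompact) fun q hq => ?_
    rw [mem_prod, not_and_or] at hq
    rcases hq with hq | hq
    · exact h0 q hq
    · exact h0' q hq

/-- **the integration by parts for a function supported in a chart** -/
theorem local_zero [CompactSpace X] (hb : IsClosedForm b)
    (hbh : ∀ e x, At e x → (b e (e x)).IsHermitian) (hl : JSm (n := n) l) (hf : JSm (n := n) f)
    (hχ : ContDiff ℝ ∞ χ) (hχc : HasCompactSupport χ) {e : Chart n X} (he : e ∈ atlas (Cm n) X)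
    {K : Set X} (hK : IsClosed K) (hKe : K ⊆ e.source) (hf0 : ∀ x, x ∉ K → ∀ z, f x z = 0)
    (j : Fin R) :
    Integrable (fun z => ∫ y in e.target, PhiD b l f χ j z e y) ∧
      ∫ z, ∫ y in e.target, PhiD b l f χ j z e y = 0 := by
  obtain ⟨h1, h2⟩ := Phi_cont hb hl hf hχ hχc he hK hKe hf0 j
  have h3 : ∀ z, ∫ y in e.target, PhiD b l f χ j z e y =
      ∫ y, e.target.indicator (PhiD b l f χ j z e) y := fun z =>
    (integral_indicator e.open_target.measurableSet).symm
  simp only [h3]
  refine ⟨?_, ?_⟩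
  · have h4 := (h1.integrable_of_hasCompactSupport h2 (μ := volume)).swap
    exact Integrable.integral_prod_left (f := fun q : Cm R × Cm n =>
      e.target.indicator (PhiD b l f χ j q.1 e) q.2) h4
  · obtain ⟨R', rfl⟩ : ∃ R', R = R' + 1 := Nat.exists_eq_succ_of_ne_zero (by
      rintro rfl; exact j.elim0)
    exact fub_zero h1 h2 j fun z => slice_green hb hbh hl hf hχ hχc he hK hKe hf0 z j

end Vale.Agent.P284.H224.D
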