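import Vale.Agent.P284.H224.D.Core

/-!
# P284 (helper224), project D, module E2: the energy identity
-/

open scoped Manifold ContDiff ComplexOrder ComplexConjugate Topology
open MeasureTheory Set Filter Matrix

noncomputable section

namespace Vale.Agent.P284.H224.D

open Vale.Agent.P272.K Vale.Agent.P272.K.INT Vale.Agent.P284.H395 Vale.Agent.P284.H619.D

/-! ### calculus -/

theorem deriv_tra {m : ℕ} (A B : Matrix (Fin m) (Fin m) ℂ) (s : ℝ) :
    HasDerivAt (fun t : ℝ => (A + (t : ℂ) • B).det.re) (tra (A + (s : ℂ) • B) B) s := by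
  have h := hasDerivAt_det_line A B s
  set g := A + (s : ℂ) • B with hg
  have h1 : ∀ r, (g.updateRow r (B r)).det = ∑ l, g.adjugate l r * B r l := by
    intro r
    have : (g.updateRow r (B r)).det = (g.transpose.updateCol r (B r)).det := by
      rw [← Matrix.det_transpose, Matrix.updateCol_transpose]
    rw [this, ← Matrix.cramer_apply, Matrix.cramer_eq_adjugate_mulVec, Matrix.mulVec,
      dotProduct]
    refine Finset.sum_congr rfl fun l _ => ?_
    rw [← Matrix.adjugate_transpose, Matrix.transpose_apply]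
  have h2 : ∑ r, (g.updateRow r (B r)).det = (g.adjugate * B).trace := by
    simp only [Matrix.trace, Matrix.diag_apply, Matrix.mul_apply, h1]
    rw [Finset.sum_comm]
  rw [h2] at h
  exact h

theorem ftc_tra {m : ℕ} (A B : Matrix (Fin m) (Fin m) ℂ) :
    ∫ t in (0 : ℝ)..1, tra (A + (t : ℂ) • B) B = (A + B).det.re - A.det.re := by
  have hc : Continuous fun t : ℝ => tra (A + (t : ℂ) • B) B := by
    have h0 : Continuous fun t : ℝ => (A + (t : ℂ) • B, B) :=
      (continuous_const.add (Complex.continuous_ofReal.smul continuous_const)).prodMk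
        continuous_const
    exact Continuous.comp (g := fun p : Matrix (Fin m) (Fin m) ℂ × Matrix (Fin m) (Fin m) ℂ =>
      tra p.1 p.2) (f := fun t : ℝ => (A + (t : ℂ) • B, B)) continuous_tra h0
  have h1 := intervalIntegral.integral_eq_sub_of_hasDerivAt
    (f := fun t : ℝ => (A + (t : ℂ) • B).det.re) (f' := fun t : ℝ => tra (A + (t : ℂ) • B) B)
    (a := 0) (b := 1) (fun t _ => deriv_tra A B t) (hc.intervalIntegrable 0 1)
  have h2 : A + ((1 : ℝ) : ℂ) • B = A + B := by rw [Complex.ofReal_one, one_smul]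
  have h3 : A + ((0 : ℝ) : ℂ) • B = A := by rw [Complex.ofReal_zero, zero_smul, add_zero]
  rw [h1]
  simp only [h2, h3]

/-- Fubini for an interval and a compactly supported weight -/
theorem fub_interval {R : ℕ} {c : Cm R → ℝ} (hc : Continuous c) (hcs : HasCompactSupport c)
    {I : ℝ × Cm R → ℝ} (hI : Continuous I) :
    ∫ z, c z * ∫ t in (0 : ℝ)..1, I (t, z) = ∫ t in (0 : ℝ)..1, ∫ z, c z * I (t, z) := by
  have h1 : Integrable (Function.uncurry fun (t : ℝ) (z : Cm R) => c z * I (t, z))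
      ((volume.restrict (Set.uIoc 0 1)).prod volume) := by
    obtain ⟨M, hM⟩ := ((isCompact_Icc (a := (0 : ℝ)) (b := 1)).prod hcs.isCompact).exists_bound_of_continuousOn
      (f := I) hI.continuousOn
    have h2 : Integrable (fun q : ℝ × Cm R => (1 : ℝ) * (max M 0 * |c q.2|))
        ((volume.restrict (Set.uIoc 0 1)).prod volume) := by
      refine Integrable.mul_prod (f := fun _ : ℝ => (1 : ℝ)) (g := fun z => max M 0 * |c z|) ?_ ?_
      · rw [Set.uIoc_of_le zero_le_one]
        exact integrable_const _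
      · exact (hc.integrable_of_hasCompactSupport hcs).abs.const_mul _
    refine h2.mono' ?_ ?_
    · exact ((hc.comp continuous_snd).mul hI).aestronglyMeasurable
    · have h3 : ∀ᵐ q : ℝ × Cm R ∂((volume.restrict (Set.uIoc 0 1)).prod volume),
          q.1 ∈ Set.uIoc (0 : ℝ) 1 := by
        have h4 : ∀ᵐ t : ℝ ∂(volume.restrict (Set.uIoc (0 : ℝ) 1)), t ∈ Set.uIoc (0 : ℝ) 1 :=
          ae_restrict_mem measurableSet_uIoc
        exact Measure.quasiMeasurePreserving_fst.ae h4
      filter_upwards [h3] with q hq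
      rw [Set.uIoc_of_le zero_le_one] at hq
      show ‖c q.2 * I (q.1, q.2)‖ ≤ _
      rw [norm_mul, Real.norm_eq_abs, one_mul, mul_comm]
      by_cases hz : q.2 ∈ tsupport c
      · refine mul_le_mul_of_nonneg_right ((hM (q.1, q.2) ⟨⟨hq.1.le, hq.2⟩, hz⟩).trans
          (le_max_left _ _)) (abs_nonneg _)
      · rw [image_eq_zero_of_notMem_tsupport hz]
        simp
  rw [intervalIntegral_integral_swap h1]
  refine integral_congr_ae (Eventually.of_forall fun z => ?_)
  simp only
  rw [intervalIntegral.integral_const_mul]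

variable {n R : ℕ} {X : Type} [TopologicalSpace X] [ChartedSpace (Cm n) X]

variable {b : Chart n X → Cm n → Matrix (Fin n) (Fin n) ℂ}
  {lam : X → Cm R → ℝ} {psi : X → ℝ} {χ : Cm R → ℝ} {j : Fin R} {e : Chart n X} {x : X} {z : Cm R}

/-- the path from `psi` to `lam` -/
def lt (psi : X → ℝ) (lam : X → Cm R → ℝ) (t : ℝ) (x : X) (z : Cm R) : ℝ :=
  psi x + t * (lam x z - psi x)

/-- the difference -/
def mu (psi : X → ℝ) (lam : X → Cm R → ℝ) (x : X) (z : Cm R) : ℝ := lam x z - psi x

theorem lt_smooth (hp : SmoothFn (n := n) psi) (hl : JSm (n := n) lam) (t : ℝ) :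
    JSm (n := n) (lt psi lam t) :=
  (JSm.of_smoothFn hp).add ((hl.sub (JSm.of_smoothFn hp)).const_mul t)

theorem mu_smooth (hp : SmoothFn (n := n) psi) (hl : JSm (n := n) lam) :
    JSm (n := n) (mu psi lam) := hl.sub (JSm.of_smoothFn hp)

theorem HB_lt (hp : SmoothFn (n := n) psi) (hl : JSm (n := n) lam) (t : ℝ) {y : Cm n}
    (he : e ∈ atlas (Cm n) X) (hy : y ∈ e.target) (z : Cm R) (j : Fin R) :
    HB (lt psi lam t) e z j y =
      HB (fun x _ => psi x) e z j y + (t : ℂ) • HB (mu psi lam) e z j y := by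
  have h1 : ContDiffAt ℝ 2 (pj (fun x (_ : Cm R) => psi x) e z j) (Fin.snoc y 0) :=
    ((JSm.of_smoothFn (R := R) hp).pj he hy z j 0).of_le two_le_inf
  have h2 : ContDiffAt ℝ 2 (pj (mu psi lam) e z j) (Fin.snoc y 0) :=
    ((mu_smooth hp hl).pj he hy z j 0).of_le two_le_inf
  unfold HB
  rw [← C2.cHess_const_mul t h2, ← C2.cHess_add h1 (contDiffAt_const.mul h2)]
  rfl

theorem Kt_lt (hp : SmoothFn (n := n) psi) (hl : JSm (n := n) lam) (t : ℝ) {y : Cm n}
    (he : e ∈ atlas (Cm n) X) (hy : y ∈ e.target) (z : Cm R) (j : Fin R) :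
    Kt b (lt psi lam t) e z j y =
      Kt b (fun x _ => psi x) e z j y + (t : ℂ) • HB (mu psi lam) e z j y := by
  unfold Kt
  rw [HB_lt hp hl t he hy, add_assoc]

theorem Kt_det_zero (hp : SmoothFn (n := n) psi) (hx : At e x) (z : Cm R) (j : Fin R) :
    (Kt b (fun x _ => psi x) e z j (e x)).det = 0 := by
  have hJ : JSm (n := n) (fun x (_ : Cm R) => psi x) := JSm.of_smoothFn hp
  refine Matrix.det_eq_zero_of_column_eq_zero (Fin.last n) fun i => ?_
  unfold Kt
  refine Fin.lastCases ?_ (fun a => ?_) i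
  · rw [Matrix.add_apply, hatM_ll, HB_ll hJ hx, zero_add]
    show dz j (dzb j fun _ : Cm R => ((psi x : ℝ) : ℂ)) z = 0
    have h0 : (dzb j fun _ : Cm R => ((psi x : ℝ) : ℂ)) = fun _ => 0 := by
      funext y
      simp [dzb]
    rw [h0]
    simp [dz]
  · rw [Matrix.add_apply, hatM_cl, HB_cl hJ hx, zero_add]
    have h0 : (fun y => dzb j (fun _ : Cm R => ((psi (e.symm y) : ℝ) : ℂ)) z) = fun _ => 0 := by
      funext y
      simp [dzb]
    rw [h0]
    simp [dz]

/-- the determinant as an integral -/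
theorem Kt_det (hp : SmoothFn (n := n) psi) (hl : JSm (n := n) lam) (hx : At e x) (z : Cm R)
    (j : Fin R) : (Kt b lam e z j (e x)).det.re =
      ∫ t in (0 : ℝ)..1, tra (Kt b (lt psi lam t) e z j (e x)) (HB (mu psi lam) e z j (e x)) := by
  have hy := e.map_source hx.2
  have h1 : ∀ t, Kt b (lt psi lam t) e z j (e x) =
      Kt b (fun x _ => psi x) e z j (e x) + (t : ℂ) • HB (mu psi lam) e z j (e x) := fun t =>
    Kt_lt hp hl t hx.1 hy z j
  have h2 : lt psi lam 1 = lam := by
    funext x z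
    simp [lt]
  have h3 := h1 1
  rw [h2, Complex.ofReal_one, one_smul] at h3
  simp only [h1]
  rw [ftc_tra, Kt_det_zero hp hx, ← h3]
  simp

/-! ### joint continuity -/

theorem pcont_D (hb : IsClosedForm b) (hp : SmoothFn (n := n) psi) (hl : JSm (n := n) lam)
    (j : Fin R) :
    PCont (fun (q : ℝ × Cm R) (e : Chart n X) y =>
      tra (Kt b (lt psi lam q.1) e q.2 j y) (HB (mu psi lam) e q.2 j y)) := by
  have hc : Continuous (fun q : ℝ × Cm R => ((q.1 : ℝ) : ℂ)) :=
    Complex.continuous_ofReal.comp continuous_fst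
  have h1 : MCont (fun (q : ℝ × Cm R) (e : Chart n X) y => HB (mu psi lam) e q.2 j y) :=
    MCont.comp (mcont_HB (mu_smooth hp hl) j) (g := Prod.snd) continuous_snd
  have h2 : MCont (fun (q : ℝ × Cm R) (e : Chart n X) y => Kt b (fun x _ => psi x) e q.2 j y) :=
    MCont.comp (mcont_Kt hb (JSm.of_smoothFn hp) j) (g := Prod.snd) continuous_snd
  have h3 := pcont_tra (h2.add (MCont.smul hc h1)) h1
  intro e x hx q
  refine (h3 e x hx q).congr ?_
  have h4 : ∀ᶠ p : (ℝ × Cm R) × Cm n in 𝓝 (q, e x), p.2 ∈ e.target :=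
    continuousAt_snd.eventually (e.open_target.mem_nhds (e.map_source hx.2))
  filter_upwards [h4] with p hp4
  show tra _ _ = tra _ _
  rw [Kt_lt hp hl p.1.1 hx.1 hp4]

theorem pcont_E (hb : IsClosedForm b) (hp : SmoothFn (n := n) psi) (hl : JSm (n := n) lam) :
    PCont (fun (q : ℝ × Cm R) (e : Chart n X) y =>
      mu psi lam (e.symm y) q.2 * (Mt b (lt psi lam q.1) q.2 e y).det.re) := by
  have hc : Continuous (fun q : ℝ × Cm R => ((q.1 : ℝ) : ℂ)) :=
    Complex.continuous_ofReal.comp continuous_fst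
  have h1 : MCont (fun (q : ℝ × Cm R) (e : Chart n X) y =>
      cHess (fun y => mu psi lam (e.symm y) q.2) y) :=
    MCont.comp (mcont_cHess (mu_smooth hp hl)) (g := Prod.snd) continuous_snd
  have h2 : MCont (fun (q : ℝ × Cm R) (e : Chart n X) y => cHess (fun y => psi (e.symm y)) y) :=
    MCont.comp (mcont_cHess (JSm.of_smoothFn (R := R) hp)) (g := Prod.snd) continuous_snd
  have h3 : MCont (fun (q : ℝ × Cm R) (e : Chart n X) y => b e y) :=
    MCont.const fun e x hx i k => (hb.smooth e x hx i k).continuousAt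
  have h5 := MCont.det_re (h3.add (h2.add (MCont.smul hc h1)))
  have h6 : PCont (fun (q : ℝ × Cm R) (e : Chart n X) y => mu psi lam (e.symm y) q.2) :=
    PCont.comp (pcont_of_JSm (mu_smooth hp hl)) (g := Prod.snd) continuous_snd
  intro e x hx q
  refine ((h6.mul h5) e x hx q).congr ?_
  have h4 : ∀ᶠ p : (ℝ × Cm R) × Cm n in 𝓝 (q, e x), p.2 ∈ e.target :=
    continuousAt_snd.eventually (e.open_target.mem_nhds (e.map_source hx.2))
  filter_upwards [h4] with p hp4
  have hx' : At e (e.symm p.2) := ⟨hx.1, e.map_target hp4⟩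
  have g1 : ContDiffAt ℝ 2 (fun y => psi (e.symm y)) p.2 := by
    have := (hp e _ hx').of_le two_le_inf
    rwa [e.right_inv hp4] at this
  have g2 : ContDiffAt ℝ 2 (fun y => mu psi lam (e.symm y) p.1.2) p.2 := by
    have := ((mu_smooth hp hl).left hx' p.1.2).of_le two_le_inf
    rwa [e.right_inv hp4] at this
  have g3 : Mt b (lt psi lam p.1.1) p.1.2 e p.2 = b e p.2 + (cHess (fun y => psi (e.symm y)) p.2 +
      ((p.1.1 : ℝ) : ℂ) • cHess (fun y => mu psi lam (e.symm y) p.1.2) p.2) := by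
    rw [← C2.cHess_const_mul _ g2, ← C2.cHess_add g1 (contDiffAt_const.mul g2)]
    rfl
  show _ * _ = _ * _
  rw [g3]

section
variable [IsManifold 𝓘(ℂ, Cm n) ω X] [T2Space X] [CompactSpace X]

/-- **the energy identity for determinants** -/
theorem core (hb : IsClosedForm b) (hbh : ∀ e x, At e x → (b e (e x)).IsHermitian)
    (hp : SmoothFn (n := n) psi) (hl : JSm (n := n) lam) (hχ : ContDiff ℝ ∞ χ)
    (hχc : HasCompactSupport χ) (j : Fin R) :
    ∫ z, χ z * intX (fun e y => (Kt b lam e z j y).det.re) =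
      ∫ z, (cHess χ z j j).re * ∫ t in (0 : ℝ)..1, intX (fun e y =>
        mu psi lam (e.symm y) z * (Mt b (lt psi lam t) z e y).det.re) := by
  set D : ℝ × Cm R → Chart n X → Cm n → ℝ := fun q e y =>
    tra (Kt b (lt psi lam q.1) e q.2 j y) (HB (mu psi lam) e q.2 j y) with hD
  set E : ℝ × Cm R → Chart n X → Cm n → ℝ := fun q e y =>
    mu psi lam (e.symm y) q.2 * (Mt b (lt psi lam q.1) q.2 e y).det.re with hE
  have hDc : PCont D := pcont_D hb hp hl j
  have hEc : PCont E := pcont_E hb hp hl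
  have h1 : ∀ z, intX (fun e y => (Kt b lam e z j y).det.re) =
      ∫ t in (0 : ℝ)..1, intX (D (t, z)) := by
    intro z
    rw [interval_intX (D := fun t => D (t, z)) (hDc.comp (by fun_prop)) zero_le_one]
    exact intX_congr fun e x hx => Kt_det hp hl hx z j
  have h2 : ∫ z, χ z * intX (fun e y => (Kt b lam e z j y).det.re) =
      ∫ t in (0 : ℝ)..1, ∫ z, χ z * intX (D (t, z)) := by
    simp only [h1]
    exact fub_interval hχ.continuous hχc (I := fun q => intX (D q)) (continuous_intX hDc)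
  have h3 : ∀ t, ∫ z, χ z * intX (D (t, z)) =
      ∫ z, (cHess χ z j j).re * intX (E (t, z)) := fun t =>
    ibp_global hb hbh (lt_smooth hp hl t) (mu_smooth hp hl) hχ hχc j
  rw [h2]
  simp only [h3]
  exact (fub_interval (continuous_cHess_re hχ j) (hcs_cHess_re hχc j) (I := fun q => intX (E q))
    (continuous_intX hEc)).symm

end

end Vale.Agent.P284.H224.D
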