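import Vale.Agent.P284.H224.D.Fubz

/-!
# P284 (helper224), project D, module E2: Green's formula on `e.target × ℂᴿ`
-/

open scoped Manifold ContDiff ComplexOrder ComplexConjugate Topology
open MeasureTheory Set Filter Matrix

noncomputable section

namespace Vale.Agent.P284.H224.D

open Vale.Agent.P272.K Vale.Agent.P272.K.INT Vale.Agent.P284.H395

variable {n R : ℕ} {X : Type} [TopologicalSpace X] [ChartedSpace (Cm n) X]

/-- the form `b + i∂∂̄l` on `X × ℂ` -/
def Kt (b : Chart n X → Cm n → Matrix (Fin n) (Fin n) ℂ) (l : X → Cm R → ℝ) (e : Chart n X)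
    (z : Cm R) (j : Fin R) (y : Cm n) : Matrix (Fin (n + 1)) (Fin (n + 1)) ℂ :=
  hatM (b e y) + HB l e z j y

omit [ChartedSpace (Cm n) X] in
theorem pj_shift (l : X → Cm R → ℝ) (e : Chart n X) (z : Cm R) (j : Fin R) (t : ℂ) :
    pj l e (z + Pi.single j t) j = fun ζ => pj l e z j (ζ + Fin.snoc (0 : Cm n) t) := by
  funext ζ
  simp only [pj, Pi.add_apply, Fin.snoc_last]
  have e1 : (Fin.init (ζ + Fin.snoc (0 : Cm n) t) : Cm n) = Fin.init ζ := by
    funext a
    simp [Fin.init]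
  have e2 : (Pi.single j (ζ (Fin.last n) + t) : Cm R) =
      Pi.single j t + Pi.single j (ζ (Fin.last n)) := by
    rw [← Pi.single_add, add_comm]
  rw [e1, e2, add_assoc]

theorem dz_shift {m : ℕ} (i : Fin m) (F : Cm m → ℂ) (a z : Cm m) :
    dz i (fun ζ => F (ζ + a)) z = dz i F (z + a) := by
  unfold dz
  rw [fderiv_comp_add_right]

theorem dzb_shift {m : ℕ} (i : Fin m) (F : Cm m → ℂ) (a z : Cm m) :
    dzb i (fun ζ => F (ζ + a)) z = dzb i F (z + a) := by
  unfold dzb
  rw [fderiv_comp_add_right]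

theorem cHess_shift {m : ℕ} (f : Cm m → ℝ) (a z : Cm m) :
    cHess (fun ζ => f (ζ + a)) z = cHess f (z + a) := by
  ext k l
  have h1 : dzb l (fun ζ => ((f (ζ + a) : ℝ) : ℂ)) = fun ζ => dzb l (fun ζ => (f ζ : ℂ)) (ζ + a) := by
    funext ζ
    exact dzb_shift l (fun ζ => (f ζ : ℂ)) a ζ
  show dz k (dzb l fun ζ => ((f (ζ + a) : ℝ) : ℂ)) z = _
  rw [h1]
  exact dz_shift k (dzb l fun ζ => (f ζ : ℂ)) a z

omit [ChartedSpace (Cm n) X] in
theorem HB_shift (l : X → Cm R → ℝ) (e : Chart n X) (z : Cm R) (j : Fin R) (t : ℂ) (y : Cm n) :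
    HB l e (z + Pi.single j t) j y = cHess (pj l e z j) (Fin.snoc y t) := by
  unfold HB
  rw [pj_shift, cHess_shift, ← snoc_add, add_zero, zero_add]

omit [ChartedSpace (Cm n) X] in
/-- the form on the slice -/
theorem Kt_am (b : Chart n X → Cm n → Matrix (Fin n) (Fin n) ℂ) (l : X → Cm R → ℝ)
    (e : Chart n X) (z : Cm R) (j : Fin R) (ζ : Cm (n + 1)) :
    Kt b l e (am n z j ζ).2 j (am n z j ζ).1 =
      hatM (b e (Fin.init ζ)) + cHess (pj l e z j) ζ := by
  unfold Kt am
  simp only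
  rw [HB_shift, Fin.snoc_init_self]

/-- `init` -/
def iL (n : ℕ) : Cm (n + 1) →L[ℝ] Cm n :=
  ContinuousLinearMap.pi fun a => ContinuousLinearMap.proj a.castSucc

theorem iL_apply (ζ : Cm (n + 1)) : iL n ζ = Fin.init ζ := rfl

theorem iL_single (a : Fin n) (c : ℂ) : iL n (Pi.single a.castSucc c) = Pi.single a c := by
  rw [← snoc_single, iL_apply, Fin.init_snoc]

theorem iL_last (c : ℂ) : iL n (Pi.single (Fin.last n) c) = 0 := by
  rw [← snoc_zero_last, iL_apply, Fin.init_snoc]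

theorem dz_init {F : Cm n → ℂ} {ζ : Cm (n + 1)} (hF : DifferentiableAt ℝ F (Fin.init ζ))
    (a : Fin n) : dz a.castSucc (fun ζ => F (Fin.init ζ)) ζ = dz a F (Fin.init ζ) := by
  have h1 : HasFDerivAt (fun ζ => F (iL n ζ)) ((fderiv ℝ F (iL n ζ)).comp (iL n)) ζ :=
    HasFDerivAt.comp ζ (g := F) hF.hasFDerivAt (iL n).hasFDerivAt
  have h2 : (fun ζ : Cm (n + 1) => F (Fin.init ζ)) = fun ζ => F (iL n ζ) := rfl
  unfold dz
  rw [h2, h1.fderiv]
  simp only [ContinuousLinearMap.comp_apply, iL_single]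
  rfl

theorem dz_init_last {F : Cm n → ℂ} {ζ : Cm (n + 1)} (hF : DifferentiableAt ℝ F (Fin.init ζ)) :
    dz (Fin.last n) (fun ζ => F (Fin.init ζ)) ζ = 0 := by
  have h1 : HasFDerivAt (fun ζ => F (iL n ζ)) ((fderiv ℝ F (iL n ζ)).comp (iL n)) ζ :=
    HasFDerivAt.comp ζ (g := F) hF.hasFDerivAt (iL n).hasFDerivAt
  have h2 : (fun ζ : Cm (n + 1) => F (Fin.init ζ)) = fun ζ => F (iL n ζ) := rfl
  unfold dz
  rw [h2, h1.fderiv]
  simp only [ContinuousLinearMap.comp_apply, iL_last, map_zero, mul_zero, sub_zero, zero_div]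

variable {b : Chart n X → Cm n → Matrix (Fin n) (Fin n) ℂ}

theorem hat_smooth (hb : IsClosedForm b) {e : Chart n X} (he : e ∈ atlas (Cm n) X)
    {ζ : Cm (n + 1)} (hζ : Fin.init ζ ∈ e.target) (i k : Fin (n + 1)) :
    ContDiffAt ℝ ∞ (fun ζ => hatM (b e (Fin.init ζ)) i k) ζ := by
  have hi : ContDiffAt ℝ ∞ (fun ζ : Cm (n + 1) => (Fin.init ζ : Cm n)) ζ := (iL n).contDiff.contDiffAt
  refine Fin.lastCases ?_ (fun i' => ?_) i
  · refine Fin.lastCases ?_ (fun k' => ?_) k
    · simp only [hatM_ll]; exact contDiffAt_const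
    · simp only [hatM_lc]; exact contDiffAt_const
  · refine Fin.lastCases ?_ (fun k' => ?_) k
    · simp only [hatM_cl]; exact contDiffAt_const
    · simp only [hatM_cc]
      have h1 := hb.smooth e (e.symm (Fin.init ζ)) ⟨he, e.map_target hζ⟩ i' k'
      rw [e.right_inv hζ] at h1
      exact h1.comp ζ hi

theorem hat_closed (hb : IsClosedForm b) {e : Chart n X} (he : e ∈ atlas (Cm n) X)
    {ζ : Cm (n + 1)} (hζ : Fin.init ζ ∈ e.target) (i k l : Fin (n + 1)) :
    dz i (fun ζ => hatM (b e (Fin.init ζ)) k l) ζ = dz k (fun ζ => hatM (b e (Fin.init ζ)) i l) ζ := by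
  have hs : ∀ k' l', DifferentiableAt ℝ (fun y => b e y k' l') (Fin.init ζ) := fun k' l' => by
    have h1 := hb.smooth e (e.symm (Fin.init ζ)) ⟨he, e.map_target hζ⟩ k' l'
    rw [e.right_inv hζ] at h1
    exact h1.differentiableAt (by simp)
  refine Fin.lastCases ?_ (fun l' => ?_) l
  · have h0 : ∀ (ζ : Cm (n + 1)) (k : Fin (n + 1)), hatM (b e (Fin.init ζ)) k (Fin.last n) = 0 := by
      intro ζ k
      refine Fin.lastCases ?_ (fun k' => ?_) k
      · simp
      · simp
    simp only [h0]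
    simp
  · refine Fin.lastCases ?_ (fun i' => ?_) i
    · refine Fin.lastCases ?_ (fun k' => ?_) k
      · rfl
      · simp only [hatM_cc, hatM_lc]
        rw [dz_init_last (F := fun y => b e y k' l') (hs _ _)]
        simp
    · refine Fin.lastCases ?_ (fun k' => ?_) k
      · simp only [hatM_cc, hatM_lc]
        rw [dz_init_last (F := fun y => b e y i' l') (hs _ _)]
        simp
      · simp only [hatM_cc]
        rw [dz_init (F := fun y => b e y k' l') (hs _ _), dz_init (F := fun y => b e y i' l') (hs _ _)]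
        have h1 := hb.closed e (e.symm (Fin.init ζ)) ⟨he, e.map_target hζ⟩ i' k' l'
        rwa [e.right_inv hζ] at h1

theorem hat_herm {A : Matrix (Fin n) (Fin n) ℂ} (hA : A.IsHermitian) : (hatM A).IsHermitian := by
  ext i k
  rw [Matrix.conjTranspose_apply]
  refine Fin.lastCases ?_ (fun i' => ?_) i
  · refine Fin.lastCases ?_ (fun k' => ?_) k
    · simp
    · simp
  · refine Fin.lastCases ?_ (fun k' => ?_) k
    · simp
    · simp only [hatM_cc]
      exact hA.apply _ _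

end Vale.Agent.P284.H224.D
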